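import Vale.Agent.P257.M.Defs
import Vale.Agent.P257.A.Filt

/-!
# P257, block V: supports of cell attachments
-/

open CategoryTheory MonoidalCategory Limits

namespace Vale.Agent.P257.V

open Vale.Agent.P251.H Vale.Agent.P251.H.StabInput Vale.Agent.P257.A Vale.Agent.P257.C
open Vale.Agent.P257.D Vale.Agent.P257.D.EF Vale.Agent.P257.M
open Vale.Agent.P251.G (LC)

section general

variable {I : Type} [Idx I] [SphIdx I] {Γ : Type} [AddCommMonoid Γ] [Preorder Γ]
  [IsOrderedAddMonoid Γ] {w : Γ →+ ℤ} (hw : Monotone w) {X Y : EF (Gr I Γ)}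
  {B B' : CommMon (EF (Gr I Γ))} {i : B ⟶ B'} {x : X ⟶ B.X} {χ : X ⊗ CI _ ⟶ B'.X} {r : ℤ}
include hw

theorem supp_J (K : LC) : Supp ((J (EF (Gr I Γ))).obj K) {g | 0 ≤ w g} :=
  (Supp.jC K).of_Ici hw w.map_zero.ge

theorem supp_tensor_J (h : Supp X {g | r ≤ w g}) (K : LC) :
    Supp (X ⊗ (J (EF (Gr I Γ))).obj K) {g | r ≤ w g} := by
  simpa using h.tensor_w hw (supp_J hw K)

theorem supp_cone {f : X ⟶ Y} (hX : Supp X {g | r ≤ w g}) (hY : Supp Y {g | r ≤ w g}) :
    Supp (cone f) {g | r ≤ w g} :=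
  Supp.of_isPushout (isPushout_cone f) (supp_tensor_J hw hX _) hY

theorem supp_attach (h : IsAttach i x χ) (hB : Supp B.X {g | 0 ≤ w g})
    (hX : Supp X {g | 0 ≤ w g}) : Supp B'.X {g | 0 ≤ w g} :=
  Supp.of_isAtt h ((AddSubmonoid.nonneg ℤ).comap w) (fun _ _ l k => le_trans k (hw l)) hB
    (supp_tensor_J hw hX _)

/-- The arity filtration is finite in every degree. -/
theorem degIso_stgTo (h : IsAttach i x χ) (hB : Supp B.X {g | 0 ≤ w g})
    (hX : Supp X {g | 1 ≤ w g}) (k : ℕ) : DegIso I {g | w g ≤ k} (stgTo h.w k) := fun y hy =>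
  h.isIso_map_stgTo (ev y) k fun ι _ K l =>
    (hB.tensor_w hw (supp_tensor_J hw (hX.pw_w hw ι) K)) y (by
      simp only [Set.mem_ofPred_eq, not_le] at hy ⊢
      omega)

end general

/-- the length of a degree -/
noncomputable def wL : Gam →+ ℤ := ell.comp (AddMonoidHom.fst _ _)

/-- the filtration degree -/
noncomputable def wT : Gam →+ ℤ := AddMonoidHom.snd _ _

theorem wL_mono : Monotone wL := fun _ _ h => (congrArg ell h.1).le

theorem wT_mono : Monotone wT := fun _ _ h => h.2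

variable {X Y : MM} {g : Gam} {k r s : ℤ} {B B' : CommMon MM} {i : B ⟶ B'} {x : X ⟶ B.X}
  {χ : X ⊗ CI MM ⟶ B'.X}

theorem nf_hv (h : NF X g k) : HV X := by
  obtain ⟨c, n, h1, -, e⟩ := h
  exact ⟨⟨c, g⟩, _, h1, e⟩

theorem nf_supp (h : NF X g k) {w : Gam →+ ℤ} (hw : Monotone w) (l : r ≤ w g) :
    Supp X {g | r ≤ w g} := by
  obtain ⟨c, n, -, -, ⟨e⟩⟩ := h
  have k : ∀ n, Supp (tpow (S MM) n) {g | 0 ≤ w g} := fun n => by
    induction n with
    | zero => exact Supp.unit.of_Ici hw w.map_zero.ge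
    | succ n ih =>
      have := (supp_J hw LC.RR).tensor_w hw ih
      rwa [add_zero] at this
  have := ((Supp.rep (⟨c, g⟩ : JG)).of_Ici hw l).tensor_w hw (k n)
  rw [add_zero] at this
  exact this.of_iso e.symm

theorem nf_posT (h : NF X g k) (l : r ≤ g.2) : PosT X r := nf_supp h wT_mono l

theorem nf_posL (h : NF X g k) (l : 0 ≤ ell g.1) : PosL X := nf_supp h wL_mono l

theorem supp_rp (g : Gam) {w : Gam →+ ℤ} (hw : Monotone w) (l : r ≤ w g) :
    Supp (rp g) {g | r ≤ w g} := (Supp.rep _).of_Ici hw l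

theorem supp_cone_tX {w : Gam →+ ℤ} (hw : Monotone w) (h : Supp X {g | r ≤ w g}) (f : ℕ) :
    Supp (cone (tX X f)) {g | r ≤ w g} :=
  supp_cone hw (by
    simpa using h.tensor_w hw (supp_rp (0, (f : ℤ)) hw (w.map_zero.ge.trans
      (hw (show (0 : Gam) ≤ (0, (f : ℤ)) from ⟨le_rfl, Int.natCast_nonneg f⟩))))) h

theorem posT_mono (h : PosT X r) (l : s ≤ r) : PosT X s := Supp.mono h fun _ k => l.trans k

theorem posT_of_iso (h : PosT X r) (e : X ≅ Y) : PosT Y r := Supp.of_iso h e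

theorem posL_of_iso (h : PosL X) (e : X ≅ Y) : PosL Y := Supp.of_iso h e

theorem posT_unit : PosT (𝟙_ MM) 0 := Supp.unit.of_Ici wT_mono le_rfl

theorem posL_unit : PosL (𝟙_ MM) := Supp.unit.of_Ici wL_mono wL.map_zero.ge

theorem posT_tensor (h : PosT X r) (k : PosT Y s) : PosT (X ⊗ Y) (r + s) :=
  Supp.tensor_w wT_mono h k

theorem posL_tensor (h : PosL X) (k : PosL Y) : PosL (X ⊗ Y) := by
  have := Supp.tensor_w wL_mono h k
  rwa [add_zero] at this

theorem posT_J (K : LC) : PosT ((J MM).obj K) 0 := supp_J wT_mono K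

theorem posL_J (K : LC) : PosL ((J MM).obj K) := supp_J wL_mono K

theorem posT_cone {f : X ⟶ Y} (hX : PosT X r) (hY : PosT Y r) : PosT (cone f) r :=
  supp_cone wT_mono hX hY

theorem posL_cone {f : X ⟶ Y} (hX : PosL X) (hY : PosL Y) : PosL (cone f) :=
  supp_cone wL_mono hX hY

theorem posT_attach (h : IsAttach i x χ) (hB : PosT B.X 0) (hX : PosT X 0) : PosT B'.X 0 :=
  supp_attach wT_mono h hB hX

theorem posL_attach (h : IsAttach i x χ) (hB : PosL B.X) (hX : PosL X) : PosL B'.X :=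
  supp_attach wL_mono h hB hX

/-- the cone of `tX X f` contains the factor `X` -/
noncomputable def coneTX (X : MM) (f : ℕ) : cone (tX X f) ≅ cone (t1 f) ⊗ X :=
  (isPushout_cone (tX X f)).isoIsPushout _ _
    ((isPushout_cone_whiskerRight (t1 f) X).of_iso (β_ _ _) (whiskerRightIso (β_ _ _) _) (λ_ X)
      (Iso.refl _) (coneBase_naturality _) (by
        rw [tX, ← BraidedCategory.braiding_naturality_left_assoc, braiding_rightUnitor])
      (inl' := (β_ _ _).inv ▷ _ ≫ (swapR _ X).hom ≫ ck (t1 f) ▷ X)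
      (inr' := (λ_ X).inv ≫ ci (t1 f) ▷ X) (by simp) (by simp))

theorem hv_cone_tX (h : HV X) (f : ℕ) : HV (cone (tX X f)) :=
  (h.tensor' _).of_iso (coneTX X f).symm

end Vale.Agent.P257.V
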