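import Vale.Agent.P257.V.Cnt
import Vale.Agent.P257.F.Dk

/-!
# P257, block V: the extended power inputs of the counting lemma
-/

open CategoryTheory MonoidalCategory Limits

namespace Vale.Agent.P257.V

open Vale.Agent.P251.H Vale.Agent.P251.H.StabInput Vale.Agent.P257.A Vale.Agent.P257.C
open Vale.Agent.P257.D Vale.Agent.P257.M Vale.Agent.P257.F

universe v u

variable {C : Type u} [Category.{v} C] [Preadditive C] [MonoidalCategory C] [SymmetricCategory C]
  [MonoidalPreadditive C] {st : MM ⥤ C} [st.Braided] {c : Cells C (ℤ × Gam)} {τ : TCone c} {p : ℕ}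

theorem proj_hz {a b : JG} (f : a ⟶ b) (h : (Gr.proj O Gam).map f = 0) : f = 0 := Gr.hom_ext h

theorem World.of_env (hp : p.Prime) (loc : L.Loc st) (E : Env st c (1, 0)) (hi : InvLt C p)
    (sg : ∀ (d : ℤ) (g : Gam), Odd d → HasSign (c.obj (d, g)) (-1))
    (nf : ∀ {X : MM} {g : Gam} {k : ℤ}, NF X g k → Nonempty (st.obj X ≅ c.obj (k, g)))
    (rpc : ∀ g : Gam, Nonempty (st.obj (rp g) ≅ c.obj (0, g)))
    (dl : ∀ (X : MM) (f : ℕ), Dl τ f (st.map (tX X f)))
    (deg : ∀ {X Y : MM} {f : X ⟶ Y} {g : Gam}, DegIso O {g} f →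
      ∀ k : ℤ, L.Bij (c.obj (k, g)) (st.map f)) : World st c τ p where
  real := ⟨loc, E.susp.map Iso.symm⟩
  two := hp.two_le
  nf := nf
  rpc := rpc
  dl := dl
  deg := deg
  d1 hv _ h := by simpa using E.conn_sym proj_hz hv (isOrb_DP _ _) h
  d1' {_ k} hv l _ h :=
    have : Nonempty (Fin k) := ⟨⟨0, l⟩⟩
    E.acyclic_sym proj_hz hv (isOrb_DP k _) h
  d2 hv e o l l' := E.acyclic_sym_odd proj_hz hp hi hv
    ((TOdd.of_hasSign (sg _ _ o)).of_iso e.symm) (isOrb_DP _ _) (by simpa) (by simpa)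
  d3 hv e o := E.conn_sym_odd proj_hz hp hi hv ((TOdd.of_hasSign (sg _ _ o)).of_iso e.symm)
    (isOrb_DP _ _) (Nat.card_fin _) ((Cells.Conn.cell _ _).of_iso e.symm)
  d4 hv l l' := E.dom_sym_prime proj_hz hp hi hv (isOrb_DP _ _) (isOrb_DP _ _) (isOrb_DP _ _)
    (Nat.card_fin _) (by simp; omega) (by simpa)

omit [MonoidalPreadditive C] in
/-- the delay property from the defining property of the maps `t f` -/
theorem dl_of_eq (e : ∀ f : ℕ, τ.R f ≅ st.obj (rp (0, (f : ℤ))))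
    (h : ∀ f : ℕ, (e f).hom ≫ st.map (t1 f) ≫ Functor.OplaxMonoidal.η st = τ.t f) (X : MM)
    (f : ℕ) : Dl τ f (st.map (tX X f)) := by
  refine ⟨Functor.OplaxMonoidal.δ st _ _ ≫ _ ◁ (e f).inv, Cells.TEq.of_isIso _, ?_⟩
  rw [← h, tX, st.map_comp, Functor.Monoidal.map_whiskerLeft, Functor.Monoidal.map_rightUnitor]
  simp

end Vale.Agent.P257.V
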