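import Vale.Agent.P257.C.TConn
import Vale.Agent.P251.M.SeqSys

/-!
# P257, block V: cones at the level of maps out of cells

`IsCone c a D` : `D` behaves like the cone of `a` with respect to maps out of the cells `c`, after
tensoring with any object.
-/

open CategoryTheory MonoidalCategory Limits Pointwise

namespace Vale.Agent.P257.V

open Vale.Agent.P257.C

universe v u

variable {C : Type u} [Category.{v} C] [MonoidalCategory C] [SymmetricCategory C] [Preadditive C]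
  [MonoidalPreadditive C]

section inj

variable {Δ : Type} [AddCommGroup Δ] (c : Cells C Δ) {A B D A' B' : C}

/-- `f` is injective on maps out of the cell of degree `d` -/
def Inj (f : A ⟶ B) (d : Δ) : Prop := ∀ g : c.obj d ⟶ A, g ≫ f = 0 → g = 0

/-- `f` is surjective on maps out of the cell of degree `d` -/
def Surj (f : A ⟶ B) (d : Δ) : Prop := ∀ g : c.obj d ⟶ B, ∃ h : c.obj d ⟶ A, h ≫ f = g

variable {c} {d e : Δ}

omit [SymmetricCategory C] [MonoidalPreadditive C] in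
theorem Inj.of_van {f : A ⟶ B} (h : c.Van A d) : Inj c f d := fun g _ => h g

omit [SymmetricCategory C] [MonoidalPreadditive C] in
theorem Surj.of_van {f : A ⟶ B} (h : c.Van B d) : Surj c f d := fun g => ⟨0, by
  rw [h g, zero_comp]⟩

omit [SymmetricCategory C] [MonoidalPreadditive C] in
theorem Inj.van {f : A ⟶ B} (h : Inj c f d) (k : c.Van B d) : c.Van A d := fun g => h g (k _)

omit [SymmetricCategory C] [MonoidalPreadditive C] in
theorem Surj.van {f : A ⟶ B} (h : Surj c f d) (k : c.Van A d) : c.Van B d := fun g => by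
  obtain ⟨w, rfl⟩ := h g
  rw [k w, zero_comp]

omit [SymmetricCategory C] [MonoidalPreadditive C] in
theorem Inj.comp {f : A ⟶ B} {g : B ⟶ D} (h : Inj c f d) (k : Inj c g d) : Inj c (f ≫ g) d :=
  fun w hw => h w (k _ (by rw [Category.assoc, hw]))

omit [SymmetricCategory C] [MonoidalPreadditive C] [Preadditive C] in
theorem Surj.comp {f : A ⟶ B} {g : B ⟶ D} (h : Surj c f d) (k : Surj c g d) :
    Surj c (f ≫ g) d := fun w => by
  obtain ⟨w, rfl⟩ := k w
  obtain ⟨w, rfl⟩ := h w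
  exact ⟨w, (Category.assoc _ _ _).symm⟩

omit [SymmetricCategory C] [MonoidalPreadditive C] in
theorem Inj.of_isIso (f : A ⟶ B) [IsIso f] : Inj c f d := fun g hg => by
  rw [← cancel_mono f, hg, zero_comp]

omit [SymmetricCategory C] [MonoidalPreadditive C] [Preadditive C] in
theorem Surj.of_isIso (f : A ⟶ B) [IsIso f] : Surj c f d := fun g => ⟨g ≫ inv f, by simp⟩

omit [SymmetricCategory C] [MonoidalPreadditive C] in
theorem Inj.of_bijective {f : A ⟶ B}
    (h : Function.Bijective fun g : c.obj d ⟶ A => g ≫ f) : Inj c f d :=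
  fun _ hg => h.1 (hg.trans zero_comp.symm)

omit [SymmetricCategory C] [MonoidalPreadditive C] [Preadditive C] in
theorem Surj.of_bijective {f : A ⟶ B}
    (h : Function.Bijective fun g : c.obj d ⟶ A => g ≫ f) : Surj c f d := h.2

omit [SymmetricCategory C] [MonoidalPreadditive C] in
theorem bijective_of {f : A ⟶ B} (h : Inj c f d) (k : Surj c f d) :
    Function.Bijective fun g : c.obj d ⟶ A => g ≫ f :=
  ⟨fun g g' e => sub_eq_zero.1 (h _ (by
    rw [Preadditive.sub_comp]; exact sub_eq_zero.2 e)), k⟩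

omit [SymmetricCategory C] [MonoidalPreadditive C] in
/-- invariance under isomorphisms of arrows -/
theorem Inj.of_iso {f : A ⟶ B} {f' : A' ⟶ B'} (h : Inj c f d) (i : A' ≅ A) (j : B ≅ B')
    (w : i.hom ≫ f ≫ j.hom = f') : Inj c f' d :=
  w ▸ (Inj.of_isIso _).comp (h.comp (Inj.of_isIso _))

omit [SymmetricCategory C] [MonoidalPreadditive C] [Preadditive C] in
/-- invariance under isomorphisms of arrows -/
theorem Surj.of_iso {f : A ⟶ B} {f' : A' ⟶ B'} (h : Surj c f d) (i : A' ≅ A) (j : B ≅ B')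
    (w : i.hom ≫ f ≫ j.hom = f') : Surj c f' d :=
  w ▸ (Surj.of_isIso _).comp (h.comp (Surj.of_isIso _))

omit [Preadditive C] [MonoidalPreadditive C] in
theorem cell_bijective (c : Cells C Δ) (e : Δ) (X Y : C) :
    Function.Bijective fun f : X ⟶ Y => f ▷ c.obj e :=
  haveI : P251.M.IsInv (c.obj e) := P251.M.IsInv.of_inverse (c.inv' e)
  P251.M.whiskerRight_bijective (c.obj e) X Y

theorem inj_whiskerRight_iff {f : A ⟶ B} : Inj c (f ▷ c.obj e) (d + e) ↔ Inj c f d := by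
  constructor
  · intro h g hg
    have h1 := h ((c.add d e).inv ≫ g ▷ c.obj e) (by
      rw [Category.assoc, ← comp_whiskerRight, hg, MonoidalPreadditive.zero_whiskerRight,
        comp_zero])
    refine (cell_bijective c e _ _).1 ?_
    rw [← cancel_epi (c.add d e).inv]
    exact h1.trans (by simp)
  · intro h g hg
    obtain ⟨w, hw⟩ := (cell_bijective c e _ _).2 ((c.add d e).hom ≫ g)
    have h1 : w ≫ f = 0 := (cell_bijective c e _ _).1 (by
      dsimp only at hw ⊢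
      rw [comp_whiskerRight, hw, Category.assoc, hg, comp_zero,
        MonoidalPreadditive.zero_whiskerRight])
    rw [← cancel_epi (c.add d e).hom, ← hw, h w h1]
    simp

omit [Preadditive C] [MonoidalPreadditive C] in
theorem surj_whiskerRight_iff {f : A ⟶ B} : Surj c (f ▷ c.obj e) (d + e) ↔ Surj c f d := by
  constructor
  · intro h g
    obtain ⟨w, hw⟩ := h ((c.add d e).inv ≫ g ▷ c.obj e)
    obtain ⟨w', hw'⟩ := (cell_bijective c e _ _).2 ((c.add d e).hom ≫ w)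
    refine ⟨w', (cell_bijective c e _ _).1 ?_⟩
    dsimp only at hw' ⊢
    rw [comp_whiskerRight, hw', Category.assoc, hw, Iso.hom_inv_id_assoc]
  · intro h g
    obtain ⟨w, hw⟩ := (cell_bijective c e _ _).2 ((c.add d e).hom ≫ g)
    obtain ⟨w', rfl⟩ := h w
    refine ⟨(c.add d e).inv ≫ w' ▷ c.obj e, ?_⟩
    dsimp only at hw
    rw [Category.assoc, ← comp_whiskerRight, hw, Iso.inv_hom_id_assoc]

end inj

variable {Γ : Type} [AddCommGroup Γ] (c : Cells C (ℤ × Γ)) {A B D A' B' D' X Y : C}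

/-- `D` behaves like the cone of `a`. -/
structure IsCone (a : A ⟶ B) (D : C) : Prop where
  van : ∀ (Y : C) (k : ℤ) (g : Γ), Surj c (Y ◁ a) (k, g) → Inj c (Y ◁ a) (k - 1, g) →
    c.Van (Y ⊗ D) (k, g)
  inj : ∀ (Y : C) (k : ℤ) (g : Γ), c.Van (Y ⊗ D) (k + 1, g) → Inj c (Y ◁ a) (k, g)
  surj : ∀ (Y : C) (k : ℤ) (g : Γ), c.Van (Y ⊗ D) (k, g) → Surj c (Y ◁ a) (k, g)

variable {c}

namespace IsCone

/-- A cone from three exact sequences. -/
theorem of_ex {S : C} (s : S ≅ c.obj (1, 0)) {a : A ⟶ B} {b : B ⟶ D} {z : D ⟶ A ⊗ S}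
    (h₁ : Ex a b) (h₂ : Ex b z) (h₃ : Ex z (a ▷ S)) (k₁ : a ≫ b = 0) (k₃ : z ≫ a ▷ S = 0) :
    IsCone c a D := by
  have key : ∀ (Y : C) (k : ℤ) (g : Γ),
      Inj c (Y ◁ (a ▷ S)) (k + 1, g) ↔ Inj c (Y ◁ a) (k, g) := by
    intro Y k g
    have e : ((k + 1, g) : ℤ × Γ) = (k, g) + (1, 0) := by simp
    rw [e, ← inj_whiskerRight_iff (f := Y ◁ a) (e := (1, 0))]
    let i : ∀ X : C, Y ⊗ X ⊗ S ≅ (Y ⊗ X) ⊗ c.obj (1, 0) := fun X =>
      (α_ _ _ _).symm ≪≫ whiskerLeftIso _ s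
    have w : (i A).hom ≫ (Y ◁ a) ▷ c.obj (1, 0) ≫ (i B).symm.hom = Y ◁ (a ▷ S) := by
      have w0 : A ◁ s.hom ≫ a ▷ c.obj (1, 0) ≫ B ◁ s.inv = a ▷ S := by
        rw [whisker_exchange_assoc, ← MonoidalCategory.whiskerLeft_comp, Iso.hom_inv_id,
          MonoidalCategory.whiskerLeft_id, Category.comp_id]
      rw [← w0]
      simp [i]
    constructor
    · intro h
      exact h.of_iso (i A).symm (i B) (by rw [← w]; simp)
    · intro h
      exact h.of_iso _ _ w
  refine ⟨fun Y k g hs hi w => ?_, fun Y k g hv => ?_, fun Y k g hv w => h₁ Y _ w (hv _)⟩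
  · have hi' : Inj c (Y ◁ (a ▷ S)) (k, g) := by
      have := (key Y (k - 1) g).2 hi
      rwa [sub_add_cancel] at this
    obtain ⟨w, rfl⟩ := h₂ Y _ w (hi' _ (by
      rw [Category.assoc, ← MonoidalCategory.whiskerLeft_comp, k₃,
        MonoidalPreadditive.whiskerLeft_zero, comp_zero]))
    obtain ⟨w, rfl⟩ := hs w
    rw [Category.assoc, ← MonoidalCategory.whiskerLeft_comp, k₁,
      MonoidalPreadditive.whiskerLeft_zero, comp_zero]
  · refine (key Y k g).1 fun w hw => ?_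
    obtain ⟨w, rfl⟩ := h₃ Y _ w hw
    rw [hv w, zero_comp]

omit [SymmetricCategory C] [MonoidalPreadditive C] in
theorem of_iso {a : A ⟶ B} (h : IsCone c a D) {a' : A' ⟶ B'} (i : A' ≅ A) (j : B ≅ B')
    (w : i.hom ≫ a ≫ j.hom = a') (l : D ≅ D') : IsCone c a' D' := by
  have w1 : ∀ Y : C, (whiskerLeftIso Y i).hom ≫ Y ◁ a ≫ (whiskerLeftIso Y j).hom = Y ◁ a' := by
    intro Y
    rw [← w]
    simp
  have w2 : ∀ Y : C, (whiskerLeftIso Y i.symm).hom ≫ Y ◁ a' ≫ (whiskerLeftIso Y j.symm).hom =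
      Y ◁ a := by
    intro Y
    rw [← w]
    simp
  exact ⟨fun Y k g hs hi => (h.van Y k g (hs.of_iso _ _ (w2 Y)) (hi.of_iso _ _ (w2 Y))).of_iso
      (whiskerLeftIso Y l),
    fun Y k g hv => (h.inj Y k g (hv.of_iso (whiskerLeftIso Y l.symm))).of_iso _ _ (w1 Y),
    fun Y k g hv => (h.surj Y k g (hv.of_iso (whiskerLeftIso Y l.symm))).of_iso _ _ (w1 Y)⟩

omit [SymmetricCategory C] [MonoidalPreadditive C] in
theorem whiskerLeft {a : A ⟶ B} (h : IsCone c a D) (X : C) : IsCone c (X ◁ a) (X ⊗ D) := by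
  have w1 : ∀ Y : C, (α_ Y X A).symm.hom ≫ (Y ⊗ X) ◁ a ≫ (α_ Y X B).hom = Y ◁ X ◁ a := by
    intro Y
    simp
  have w2 : ∀ Y : C, (α_ Y X A).hom ≫ Y ◁ X ◁ a ≫ (α_ Y X B).symm.hom = (Y ⊗ X) ◁ a := by
    intro Y
    simp
  exact ⟨fun Y k g hs hi => (h.van (Y ⊗ X) k g (hs.of_iso _ _ (w2 Y))
      (hi.of_iso _ _ (w2 Y))).of_iso (α_ _ _ _),
    fun Y k g hv => (h.inj (Y ⊗ X) k g (hv.of_iso (α_ _ _ _).symm)).of_iso _ _ (w1 Y),
    fun Y k g hv => (h.surj (Y ⊗ X) k g (hv.of_iso (α_ _ _ _).symm)).of_iso _ _ (w1 Y)⟩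

omit [MonoidalPreadditive C] in
theorem whiskerRight {a : A ⟶ B} (h : IsCone c a D) (X : C) : IsCone c (a ▷ X) (D ⊗ X) :=
  (h.whiskerLeft X).of_iso (β_ _ _) (β_ _ _) (by simp) (β_ _ _)

variable {a : A ⟶ B} {k : ℤ} {g : Γ}

omit [SymmetricCategory C] [MonoidalPreadditive C] in
theorem van_tgt (h : IsCone c a D) (hA : c.Van (Y ⊗ A) (k, g)) (hD : c.Van (Y ⊗ D) (k, g)) :
    c.Van (Y ⊗ B) (k, g) := (h.surj Y k g hD).van hA

omit [SymmetricCategory C] [MonoidalPreadditive C] in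
theorem van_src (h : IsCone c a D) (hB : c.Van (Y ⊗ B) (k, g)) (hD : c.Van (Y ⊗ D) (k + 1, g)) :
    c.Van (Y ⊗ A) (k, g) := (h.inj Y k g hD).van hB

omit [SymmetricCategory C] [MonoidalPreadditive C] in
theorem van_cone (h : IsCone c a D) (hB : c.Van (Y ⊗ B) (k, g))
    (hA : c.Van (Y ⊗ A) (k - 1, g)) : c.Van (Y ⊗ D) (k, g) :=
  h.van Y k g (Surj.of_van hB) (Inj.of_van hA)

omit [SymmetricCategory C] [MonoidalPreadditive C] in
theorem van_tgt' (h : IsCone c a D) (hA : c.Van A (k, g)) (hD : c.Van D (k, g)) :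
    c.Van B (k, g) :=
  (h.van_tgt (hA.of_iso (λ_ _).symm) (hD.of_iso (λ_ _).symm)).of_iso (λ_ _)

omit [SymmetricCategory C] [MonoidalPreadditive C] in
theorem van_src' (h : IsCone c a D) (hB : c.Van B (k, g)) (hD : c.Van D (k + 1, g)) :
    c.Van A (k, g) :=
  (h.van_src (hB.of_iso (λ_ _).symm) (hD.of_iso (λ_ _).symm)).of_iso (λ_ _)

omit [SymmetricCategory C] [MonoidalPreadditive C] in
theorem van' (h : IsCone c a D) (hs : Surj c a (k, g)) (hi : Inj c a (k - 1, g)) :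
    c.Van D (k, g) :=
  (h.van (𝟙_ C) k g (hs.of_iso (λ_ _) (λ_ _).symm (by simp))
    (hi.of_iso (λ_ _) (λ_ _).symm (by simp))).of_iso (λ_ _)

omit [SymmetricCategory C] [MonoidalPreadditive C] in
theorem inj' (h : IsCone c a D) (hv : c.Van D (k + 1, g)) : Inj c a (k, g) :=
  (h.inj (𝟙_ C) k g (hv.of_iso (λ_ _).symm)).of_iso (λ_ _).symm (λ_ _) (by simp)

omit [SymmetricCategory C] [MonoidalPreadditive C] in
theorem surj' (h : IsCone c a D) (hv : c.Van D (k, g)) : Surj c a (k, g) :=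
  (h.surj (𝟙_ C) k g (hv.of_iso (λ_ _).symm)).of_iso (λ_ _).symm (λ_ _) (by simp)

variable {P : Set (ℤ × Γ)}

omit [SymmetricCategory C] [MonoidalPreadditive C] in
theorem tConn_tgt (h : IsCone c a D) (hA : c.TConn A P) (hD : c.TConn D P) : c.TConn B P :=
  fun Y d l => h.van_tgt (hA Y d l) (hD Y d l)

omit [SymmetricCategory C] [MonoidalPreadditive C] in
theorem tConn_src (h : IsCone c a D) (hB : c.TConn B P) {Q : Set (ℤ × Γ)} (hD : c.TConn D Q)
    (hQ : ∀ q ∈ Q, (q.1 - 1, q.2) ∈ P) : c.TConn A P := fun Y d l =>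
  h.van_src (hB Y d l) (hD Y _ fun q hq => by
    have e : ((d.1 + 1, d.2) : ℤ × Γ) - q = d - (q.1 - 1, q.2) := by
      ext
      · simp; ring
      · simp
    rw [e]
    exact l _ (hQ q hq))

omit [SymmetricCategory C] [MonoidalPreadditive C] in
theorem tConn_cone (h : IsCone c a D) (hB : c.TConn B P) {Q : Set (ℤ × Γ)} (hA : c.TConn A Q)
    (hQ : ∀ q ∈ Q, (q.1 + 1, q.2) ∈ P) : c.TConn D P := fun Y d l =>
  h.van_cone (hB Y d l) (hA Y _ fun q hq => by
    have e : ((d.1 - 1, d.2) : ℤ × Γ) - q = d - (q.1 + 1, q.2) := by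
      ext
      · simp; ring
      · simp
    rw [e]
    exact l _ (hQ q hq))

omit [SymmetricCategory C] [MonoidalPreadditive C] in
theorem conn_tgt {r : ℤ} (h : IsCone c a D) (hA : c.Conn A g r) (hD : c.Conn D g r) :
    c.Conn B g r := h.tConn_tgt hA hD

omit [SymmetricCategory C] [MonoidalPreadditive C] in
theorem conn_src {r : ℤ} (h : IsCone c a D) (hB : c.Conn B g r) (hD : c.Conn D g (r + 1)) :
    c.Conn A g r := h.tConn_src hB hD fun _ hq => ⟨hq.1, le_sub_iff_add_le.2 hq.2⟩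

omit [SymmetricCategory C] [MonoidalPreadditive C] in
theorem conn_cone {r : ℤ} (h : IsCone c a D) (hB : c.Conn B g r) (hA : c.Conn A g (r - 1)) :
    c.Conn D g r := h.tConn_cone hB hA fun _ hq => ⟨hq.1, sub_le_iff_le_add.1 hq.2⟩

omit [SymmetricCategory C] [MonoidalPreadditive C] in
theorem tEq (h : IsCone c a D) (hD : c.TConn D ∅) : c.TEq a := fun Y d =>
  bijective_of (h.inj Y d.1 d.2 (hD Y _ (by simp))) (h.surj Y d.1 d.2 (hD Y _ (by simp)))

omit [SymmetricCategory C] [MonoidalPreadditive C] in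
theorem tConn_of_tEq (h : IsCone c a D) (ha : c.TEq a) : c.TConn D ∅ := fun Y d _ =>
  h.van Y d.1 d.2 (Surj.of_bijective (ha Y _)) (Inj.of_bijective (ha Y _))

end IsCone

end Vale.Agent.P257.V
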