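import Vale.Agent.P257.V.Real
import Vale.Agent.P257.V.Supp

/-!
# P257, block V: the counting lemma for graded filtered orthogonal spectra

`World st c τ p` collects the properties of the stable category which are used.
-/

open CategoryTheory MonoidalCategory Limits

namespace Vale.Agent.P257.V

open Vale.Agent.P251.H Vale.Agent.P251.H.StabInput Vale.Agent.P257.A Vale.Agent.P257.C
open Vale.Agent.P257.D Vale.Agent.P257.M

universe v u v' u'

section general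

variable {M : Type u} [Category.{v} M] [MonoidalCategory M] [SymmetricCategory M]
  [MonoidalClosed M] [HasZeroMorphisms M] [HasColimitsOfSize.{0, 0} M] [StabInput M]
  {C : Type u'} [Category.{v'} C] [Preadditive C] [MonoidalCategory C] [SymmetricCategory C]
  [MonoidalPreadditive C] {st : M ⥤ C} [st.Monoidal] {Γ : Type} [AddCommGroup Γ]
  {c : Cells C (ℤ × Γ)} {X : M} {B B' : CommMon M} {i : B ⟶ B'} {x : X ⟶ B.X}
  {χ : X ⊗ CI M ⟶ B'.X}

theorem Real.bij_stgTo (H : Real st c) (w : coneBase X ≫ χ = x ≫ ah i) {m n : ℕ} (l : m ≤ n)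
    (h : ∀ j, m < j → j ≤ n → c.TConn (st.obj (DP j (X ⊗ S M))) ∅) {d : ℤ × Γ}
    (k : L.Bij (c.obj d) (st.map (stgTo w n))) : L.Bij (c.obj d) (st.map (stgTo w m)) := by
  induction n, l using Nat.le_induction with
  | base => exact k
  | succ n l ih =>
    refine ih (fun j a b => h j a (by omega)) ?_
    obtain ⟨r, -, hr⟩ := exists_cok_stgI x (Nat.card_fin (n + 1)) (isOrb_DP (n + 1) (X ⊗ S M))
    rw [← stgI_stgTo, st.map_comp]
    exact L.Bij.comp (((H.cok (hCof_stgI x n) hr).tEq ((tConn_empty_left (h _ (by omega) le_rfl)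
      _).of_iso (Functor.Monoidal.μIso st _ _))).bijective d) k

theorem exists_iso_c1 (w : coneBase X ≫ χ = x ≫ ah i) :
    ∃ e : cone (actL x) ≅ stg (coneBase X) x 1, e.hom ≫ stgTo w 1 = c1 w :=
  have h : IsPushout _ (actL x) _ _ := isPushout_stg_one x
  ⟨(isPushout_cone (actL x)).isoIsPushout _ _ h, cone_ext
    (by rw [IsPushout.inl_isoIsPushout_hom_assoc, ck_c1, Category.assoc, pw1_stgTo])
    (by rw [IsPushout.inr_isoIsPushout_hom_assoc, ci_c1, presI_stgTo])⟩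

end general

variable {C : Type u'} [Category.{v'} C] [Preadditive C] [MonoidalCategory C] [SymmetricCategory C]
  [MonoidalPreadditive C] (st : MM ⥤ C) [st.Monoidal] (c : Cells C (ℤ × Gam)) (τ : TCone c) (p : ℕ)

/-- the properties of the stable category which the counting lemma uses -/
structure World : Prop where
  real : Real st c
  two : 2 ≤ p
  nf {X : MM} {g : Gam} {k : ℤ} : NF X g k → Nonempty (st.obj X ≅ c.obj (k, g))
  rpc (g : Gam) : Nonempty (st.obj (rp g) ≅ c.obj (0, g))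
  dl (X : MM) (f : ℕ) : Dl τ f (st.map (tX X f))
  deg {X Y : MM} {f : X ⟶ Y} {g : Gam} : DegIso O {g} f → ∀ k : ℤ, L.Bij (c.obj (k, g)) (st.map f)
  d1 {Y : MM} {g : Gam} {d : ℤ} {k : ℕ} : HV Y → k < p ^ 2 → c.Conn (st.obj Y) g d →
    c.Conn (st.obj (DP k Y)) (k • g) (k * d)
  d1' {Y : MM} {k : ℕ} : HV Y → 1 ≤ k → k < p ^ 2 → c.TConn (st.obj Y) ∅ →
    c.TConn (st.obj (DP k Y)) ∅
  d2 {X : MM} {g : Gam} {d : ℤ} {k : ℕ} : HV X → (st.obj (X ⊗ S MM) ≅ c.obj (d, g)) → Odd d →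
    2 ≤ k → k < p → c.TConn (st.obj (DP k (X ⊗ S MM))) ∅
  d3 {X : MM} {g : Gam} {d : ℤ} : HV X → (st.obj (X ⊗ S MM) ≅ c.obj (d, g)) → Odd d →
    c.Conn (st.obj (DP p (X ⊗ S MM))) (p • g) (p * d + p - 2)
  d4 {X : MM} {k : ℕ} : HV X → p < k → k < p ^ 2 → Dom c (st.obj (DP k (X ⊗ S MM)))
    (st.obj (DP p (X ⊗ S MM)) ⊗ st.obj (DP (k - p) (X ⊗ S MM)))

variable {st c τ p}

/-- the parameters -/
@[reducible] noncomputable def par (p P Lm : ℕ) (hp : 0 < p) : Par Lam := ⟨P, p, Lm, ell, bd p, hp⟩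

theorem even_DD_sub_sz (p : ℕ) (a : Lam) : Even (DD p a - sz a) := by
  refine ⟨wt (fun i => (p : ℤ) ^ i - 1) a, ?_⟩
  have : DD p - sz = wt (fun i => (p : ℤ) ^ i - 1) + wt (fun i => (p : ℤ) ^ i - 1) :=
    Finsupp.addHom_ext' fun i => AddMonoidHom.ext_int (by
      change DD p (ee i) - sz (ee i) = wt _ (ee i) + wt _ (ee i)
      rw [DD_ee, sz_ee, wt_ee, dd]
      ring)
  exact DFunLike.congr_fun this a

namespace World

variable (H : World st c τ p) {X Y : MM} {g : Gam} {a : Lam} {k W N : ℤ} {B B' : CommMon MM}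
  {i : B ⟶ B'} {x : X ⟶ B.X} {χ : X ⊗ CI MM ⟶ B'.X} {P Lm : ℕ} {hp : 0 < p}
include H

omit [SymmetricCategory C] [MonoidalPreadditive C] [st.Monoidal] in
theorem lt_sq : p < p ^ 2 := by
  have := H.two
  nlinarith

omit [SymmetricCategory C] [MonoidalPreadditive C] in
theorem susp (e : Nonempty (st.obj X ≅ c.obj (k, g))) :
    Nonempty (st.obj (X ⊗ S MM) ≅ c.obj (k + 1, g)) := by
  obtain ⟨e⟩ := e
  obtain ⟨s⟩ := H.real.sph
  exact ⟨(Functor.Monoidal.μIso st _ _).symm ≪≫ (e ⊗ᵢ s) ≪≫ c.add _ _ ≪≫ eqToIso (by simp)⟩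

omit [SymmetricCategory C] [MonoidalPreadditive C] [st.Monoidal] in
theorem bij_of_supp (h : IsAttach i x χ) {w : Gam →+ ℤ} (hw : Monotone w)
    (hB : Supp B.X {g | 0 ≤ w g}) (hX : Supp X {g | 1 ≤ w g}) {m : ℕ} (l : w g ≤ m) (k : ℤ) :
    L.Bij (c.obj (k, g)) (st.map (stgTo h.w m)) :=
  H.deg ((degIso_stgTo hw h hB hX m).mono (Set.singleton_subset_iff.2 l)) k

/-- An odd cell of positive filtration degree is attached linearly. -/
theorem bij_c1 (h : IsAttach i x χ) (hv : HV X) (hB : PosT B.X 0) (hX : PosT X 1)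
    (e : Nonempty (st.obj X ≅ c.obj (k, g))) (hk : Even k) (l : ℤ) (a : Lam) {T : ℤ} (hT : T < p) :
    L.Bij (c.obj (l, (a, T))) (st.map (c1 h.w)) := by
  obtain ⟨e⟩ := H.susp e
  obtain ⟨j, hj⟩ := exists_iso_c1 h.w
  have := H.two
  rw [← hj, st.map_comp]
  exact (L.Bij.of_isIso _ _).comp (H.real.bij_stgTo h.w (n := p - 1) (by omega)
    (fun j a b => H.d2 hv e hk.add_one a (by omega))
    (H.bij_of_supp h wT_mono hB hX (show T ≤ _ by omega) l))

theorem van_c1 (h : IsAttach i x χ) (hv : HV X) (hB : PosT B.X 0) (hX : PosT X 1)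
    (e : Nonempty (st.obj X ≅ c.obj (k, g))) (hk : Even k) (l : ℤ) (a : Lam) {T : ℤ} (hT : T < p) :
    c.Van (st.obj (cone (c1 h.w))) (l, (a, T)) :=
  H.real.van_cone (fun l => H.bij_c1 h hv hB hX e hk l a hT) l

/-- An acyclic cell of positive filtration degree is invisible. -/
theorem bij_ah (h : IsAttach i x χ) (hv : HV X) (hB : PosT B.X 0) (hX : PosT X 1)
    (e : c.TConn (st.obj X) ∅) (l : ℤ) (a : Lam) {T : ℤ} (hT : T ≤ p) :
    L.Bij (c.obj (l, (a, T))) (st.map (ah i)) := by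
  have e' : c.TConn (st.obj (X ⊗ S MM)) ∅ :=
    (tConn_empty_left e _).of_iso (β_ _ _ ≪≫ Functor.Monoidal.μIso st _ _)
  rw [← stg0_stgTo h.w, st.map_comp]
  exact (L.Bij.of_isIso _ _).comp (H.real.bij_stgTo h.w (n := p) (Nat.zero_le _)
    (fun j a b => H.d1' (hv.tensor _) a (b.trans_lt H.lt_sq) e')
    (H.bij_of_supp h wT_mono hB hX hT l))

theorem van_ah (h : IsAttach i x χ) (hv : HV X) (hB : PosT B.X 0) (hX : PosT X 1)
    (e : c.TConn (st.obj X) ∅) (l : ℤ) (a : Lam) {T : ℤ} (hT : T ≤ p) :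
    c.Van (st.obj (cone (ah i))) (l, (a, T)) :=
  H.real.van_cone (fun l => H.bij_ah h hv hB hX e l a hT) l

theorem van_L (h : IsAttach i x χ) (hB : PosL B.X) (hX : Supp X {g | 1 ≤ wL g}) (a : Lam)
    (ha : ell a ≤ Lm) (l T : ℤ) : c.Van (st.obj (cone (stgTo h.w Lm))) (l, (a, T)) :=
  H.real.van_cone (fun l => H.bij_of_supp h wL_mono hB hX (g := (a, T)) ha l) l

/-- The cells `ν_S`, `S ≠ ∅`. -/
theorem nu (h : Prof τ (par p P Lm hp) (st.obj B.X) W N) (hL : Lm < p ^ 2) (hW : W ≤ P)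
    (hB : PosL B.X) (att : IsAttach i x χ) (hX : NF X (a, 0) k) (ok : OkNu p a k) :
    Prof τ (par p P Lm hp) (st.obj B'.X) W (N + 1) := by
  obtain ⟨o1, o2, o3⟩ := ok
  obtain ⟨e⟩ := H.susp (H.nf hX)
  have hv := nf_hv hX
  have hc : c.Conn (st.obj (X ⊗ S MM)) (a, 0) (k + 1) := (Cells.Conn.cell _ _).of_iso e.symm
  have hE := fun a ha l (T : ℤ) (_ : T ≤ P) => H.van_L att hB (nf_supp hX wL_mono o1) (Lm := Lm) a ha l T
  have hp0 : (0 : ℤ) ≤ p := Int.natCast_nonneg p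
  by_cases hd : bd p a ≤ p * (k + 1)
  · exact (h.crude (H.real.filt att.w) hW (zero_le_one.trans o1) hE (fun j _ l => by
      simpa using H.d1 (hv.tensor _) (l.trans_lt hL) hc) hd).mono le_rfl (by omega)
  · rw [bd_apply] at hd
    have k1 : DD p a + sz a = k + 2 := by
      by_contra k2
      have := mul_le_mul_of_nonneg_left (show DD p a + sz a ≤ k + 1 by omega) hp0
      linarith
    have k2 : Odd (k + 1) := by
      obtain ⟨r, hr⟩ := even_DD_sub_sz p a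
      exact ⟨r - 1, by omega⟩
    refine h.odd (H.real.filt att.w) hW (zero_le_one.trans o1) hE
      (fun j l l' => H.d4 hv l (l'.trans_lt hL)) (hc.of_iso (st.mapIso (DP1 _)))
      (fun r l l' => H.d2 hv e k2 l l') (by simpa using H.d3 hv e k2) ?_
    change bd p a ≤ p * (k + 1 + 1) - 3
    rw [bd_apply, ← mul_add, k1]
    linarith

/-- Odd cells of positive filtration degree. -/
theorem odd {f : ℕ} (h : Prof τ (par p P Lm hp) (st.obj B.X) W N) (hP : P < p) (hW : W + f ≤ P)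
    (hB : PosT B.X 0) (att : IsAttach i x χ) (hX : NF X (a, f) k) (hk : Even k) (hf : 1 ≤ f)
    (ha : 0 ≤ ell a) (hd : bd p a ≤ p * (k + 1)) :
    Prof τ (par p P Lm hp) (st.obj B'.X) (W + f) N := by
  obtain ⟨e⟩ := H.susp (H.nf hX)
  have := h.top (n := 0) (H.real.filt att.w) hW ha (fun a _ l T hT => H.real.van_cone
    (fun l => H.bij_of_supp att wT_mono hB (nf_posT hX (Int.ofNat_le.2 hf)) (g := (a, T)) hT l)
      l) (((Cells.Conn.cell _ _).of_iso e.symm).of_iso (st.mapIso (DP1 _)))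
    (fun r l l' => H.d2 (nf_hv hX) e hk.add_one l (l'.trans_lt hP)) le_rfl (by simpa using hd)
  simpa using this

theorem good_pair {f : ℕ} (hP : P < p) (hf : 1 ≤ f) (hv : HV X)
    (e : Nonempty (st.obj X ≅ c.obj (k, (a, 0)))) (hk : Odd k) (j : ℕ) (hj : j + 1 ≤ p) (r : ℤ)
    (hr : j + 1 = p → r ≤ p * (k + 1) + 2 * p - 3) :
    Good τ P (st.obj (DP (j + 1) (cone (tX X f) ⊗ S MM))) ((j + 1) • a) r f := by
  have e' : Nonempty (st.obj (X ⊗ rp (0, (f : ℤ))) ≅ c.obj (k, (a, f))) := by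
    obtain ⟨e⟩ := e
    obtain ⟨s⟩ := H.rpc (0, f)
    exact ⟨(Functor.Monoidal.μIso st _ _).symm ≪≫ (e ⊗ᵢ s) ≪≫ c.add _ _ ≪≫ eqToIso (by simp)⟩
  obtain ⟨e₁⟩ := H.susp e
  obtain ⟨e₂⟩ := H.susp ⟨e₁⟩
  obtain ⟨e₃⟩ := H.susp (H.susp e')
  have hc : c.Conn (st.obj (X ⊗ S MM)) (a, 0) (k + 1) := (Cells.Conn.cell _ _).of_iso e₁.symm
  have h1 : ∀ l, l ≤ p → c.Conn (st.obj (DP l (X ⊗ S MM))) (l • a, 0) (l * (k + 1)) := fun l hl => by
    simpa using H.d1 (hv.tensor _) (hl.trans_lt H.lt_sq) hc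
  have hk' : Odd (k + 1 + 1) := hk.add_one.add_one
  refine H.real.good_kos (isPushout_cone_whiskerRight (tX X f) (S MM)) ?_ j
    (fun l hl => Cells.TConn.mono (h1 l (by omega)) up_subset_at)
    (H.d1' ((hv.tensor _).tensor _) (by omega) (hj.trans_lt H.lt_sq) (H.real.tConn_CI _))
    (fun l l1 l2 => ?_) (fun l l1 l2 => ?_)
  · rw [Functor.Monoidal.map_whiskerRight]
    exact ((H.dl X f).whiskerRight _).of_iso _ (Cells.TEq.of_isIso _) _
  · by_cases h : l + 1 < p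
    · exact Cells.Conn.of_empty (tConn_empty_left (H.d2 (hv.tensor _) e₂ hk' (by omega) h) _)
    · obtain rfl : l = j := by omega
      have h2 := hr (by omega)
      have h3 := (h1 0 (Nat.zero_le _)).tensor (H.d3 (hv.tensor _) e₂ hk')
      rw [Nat.sub_self, show l + 1 = p by omega]
      exact Cells.Conn.mono (by simpa using h3) (by linarith)
  · by_cases h : l + 1 < p
    · exact Good.of_empty (tConn_empty_left
        (H.d2 ((hv.tensor _).tensor _) e₃ hk' (by omega) h) _)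
    · obtain rfl : l = j := by omega
      have h3 := (h1 0 (Nat.zero_le _)).tensor (H.d3 ((hv.tensor _).tensor _) e₃ hk')
      rw [Nat.sub_self, show l + 1 = p by omega]
      refine Good.of_high (Int.natCast_nonneg _) (Cells.TConn.mono h3 (up_subset_at.trans ?_))
      simp only [zero_smul, Prod.smul_mk, zero_add, nsmul_eq_mul]
      exact at_subset_high (by
        have : p * 1 ≤ p * f := Nat.mul_le_mul_left p hf
        exact_mod_cast (show P < p * f by omega))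

/-- Koszul pairs of cells. -/
theorem pair' {f s : ℕ} {x : cone (tX X f) ⟶ B.X} {χ : cone (tX X f) ⊗ CI MM ⟶ B'.X}
    (h : Prof τ (par p P Lm hp) (st.obj B.X) W N) (hP : P < p) (hL : Lm < p ^ 2) (hs : Lm < s * p)
    (hW : W + (s * f : ℕ) ≤ P) (hB : PosL B.X) (att : IsAttach i x χ) (hX : NF X (a, 0) k)
    (hk : Odd k) (hf : 1 ≤ f) (ha : 1 ≤ ell a) (hd : bd p a ≤ p * (k + 1) + 2 * p - 3) :
    Prof τ (par p P Lm hp) (st.obj B'.X) (W + (s * f : ℕ)) N := by
  have hv := nf_hv hX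
  refine h.pair (H.real.filt att.w) hs hW (zero_le_one.trans ha)
    (fun a ha' l T _ => H.van_L att hB (supp_cone_tX wL_mono (nf_supp hX wL_mono ha) f) a ha' l T)
    (fun j l l' => H.d4 (hv_cone_tX hv f) l (l'.trans_lt hL)) (fun r l l' ρ => ?_) ?_ hd
  · obtain ⟨j, rfl⟩ : ∃ j, r = j + 1 := ⟨r - 1, by omega⟩
    exact H.good_pair hP hf hv (H.nf hX) hk j l'.le ρ fun e => absurd e l'.ne
  · obtain ⟨j, rfl⟩ : ∃ j, p = j + 1 := ⟨p - 1, by omega⟩
    exact H.good_pair hP hf hv (H.nf hX) hk j le_rfl _ fun _ => le_rfl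

/-- The pair `ν_{m, ∅}`, `τ_m`. -/
theorem pair {f s m : ℕ} {x : cone (tX X f) ⟶ B.X} {χ : cone (tX X f) ⊗ CI MM ⟶ B'.X}
    (h : Prof τ (par p P Lm hp) (st.obj B.X) W N) (hP : P < p) (hL : Lm < p ^ 2) (hs : Lm < s * p)
    (hW : W + (s * f : ℕ) ≤ P) (hB : PosL B.X) (att : IsAttach i x χ)
    (hX : NF X (ee m, 0) (dd p m - 2)) (hf : 1 ≤ f) :
    Prof τ (par p P Lm hp) (st.obj B'.X) (W + (s * f : ℕ)) N := by
  have h1 : (1 : ℤ) ≤ 2 ^ m := one_le_pow₀ one_le_two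
  refine H.pair' h hP hL hs hW hB att hX ⟨p ^ m - 2, by rw [dd]; ring⟩ hf (by rwa [ell_ee]) ?_
  rw [bd_apply, DD_ee, sz_ee, ell_ee]
  linarith

omit H in
/-- Tensoring with a connective object. -/
theorem mu (h : Prof τ (par p P Lm hp) (st.obj X) W N) (hW : W ≤ P) (hY : c.Conn (st.obj Y) 0 0) :
    Prof τ (par p P Lm hp) (st.obj (Y ⊗ X)) W N :=
  (h.tensor_conn hY hW).of_iso (β_ _ _ ≪≫ Functor.Monoidal.μIso st _ _)

end World

end Vale.Agent.P257.V
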