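import Vale.Agent.P257.A.Filt

/-!
# P257, block V: split idempotents and free commutative monoids
-/

open CategoryTheory MonoidalCategory Limits MonObj

namespace Vale.Agent.P257.V

open Vale.Agent.P251.H Vale.Agent.P251.H.StabInput Vale.Agent.P257.A Vale.Agent.P257.F

universe v u

section spl

variable {C : Type u} [Category.{v} C] {X X' X'' G G' G'' : C}

/-- a splitting of an idempotent -/
structure Spl (e : X ⟶ X) (π : X ⟶ G) (s : G ⟶ X) : Prop where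
  ps : π ≫ s = e
  sp : s ≫ π = 𝟙 G

namespace Spl

variable {e : X ⟶ X} {π : X ⟶ G} {s : G ⟶ X} {e' : X' ⟶ X'} {π' : X' ⟶ G'} {s' : G' ⟶ X'}
  {e'' : X'' ⟶ X''} {π'' : X'' ⟶ G''} {s'' : G'' ⟶ X''}

@[reassoc]
theorem ep (h : Spl e π s) : e ≫ π = π := by
  rw [← h.ps, Category.assoc, h.sp, Category.comp_id]

@[reassoc]
theorem se (h : Spl e π s) : s ≫ e = s := by
  rw [← h.ps, reassoc_of% h.sp]

theorem epi (h : Spl e π s) : Epi π :=
  ⟨fun a b H => by rw [← Category.id_comp a, ← h.sp, Category.assoc, H, reassoc_of% h.sp]⟩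

theorem isOrb (h : Spl e π s) : IsOrb (fun _ : Unit => e) π :=
  ⟨fun _ => h.ep, fun f hf => ⟨s ≫ f, by rw [reassoc_of% h.ps, hf ()]⟩,
    fun H => have := h.epi; (cancel_epi π).1 H⟩

theorem map {D : Type*} [Category D] (F : C ⥤ D) (h : Spl e π s) :
    Spl (F.map e) (F.map π) (F.map s) :=
  ⟨by rw [← F.map_comp, h.ps], by rw [← F.map_comp, h.sp, F.map_id]⟩

/-- two splittings are isomorphic -/
def iso {π₁ : X ⟶ G'} {s₁ : G' ⟶ X} (h : Spl e π s) (h₁ : Spl e π₁ s₁) : G ≅ G' where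
  hom := s ≫ π₁
  inv := s₁ ≫ π
  hom_inv_id := by rw [Category.assoc, reassoc_of% h₁.ps, h.ep, h.sp]
  inv_hom_id := by rw [Category.assoc, reassoc_of% h.ps, h₁.ep, h₁.sp]

@[reassoc]
theorem comp_left (h : Spl e π s) (h' : Spl e' π' s') {j : X ⟶ X'} (w : e ≫ j = j ≫ e') :
    π ≫ s ≫ j ≫ π' = j ≫ π' := by
  rw [reassoc_of% h.ps, reassoc_of% w, h'.ep]

@[reassoc]
theorem comp_right (h : Spl e π s) (h' : Spl e' π' s') {j : X ⟶ X'} (w : e ≫ j = j ≫ e') :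
    s ≫ j ≫ π' ≫ s' = s ≫ j := by
  rw [h'.ps, ← w, h.se_assoc]

theorem isCok [HasZeroMorphisms C] (h : Spl e π s) (h' : Spl e' π' s') (h'' : Spl e'' π'' s'')
    {j : X ⟶ X'} {r : X' ⟶ X''} (H : IsCok j r) (w : e ≫ j = j ≫ e') (w' : e' ≫ r = r ≫ e'') :
    IsCok (s ≫ j ≫ π') (s' ≫ r ≫ π'') := by
  refine ⟨?_, ?_, fun m hm => ?_⟩
  · simp only [Category.assoc]
    rw [h.comp_right_assoc h' w, reassoc_of% H.w, zero_comp, comp_zero]
  · have := H.epi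
    have := h''.epi
    have : Epi (π' ≫ s' ≫ r ≫ π'') := by
      rw [h'.comp_left h'' w']
      infer_instance
    exact epi_of_epi π' _
  · obtain ⟨n, hn⟩ := H.desc (π' ≫ m) (by
      rw [← h.comp_left_assoc h' w]
      simp only [Category.assoc] at hm
      rw [hm, comp_zero])
    refine ⟨s'' ≫ n, ?_⟩
    simp only [Category.assoc]
    rw [h'.comp_right_assoc h'' w', hn, reassoc_of% h'.sp]

end Spl

theorem exists_spl [HasColimitsOfSize.{0, 0} C] {e : X ⟶ X} (he : e ≫ e = e) :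
    ∃ (G : C) (π : X ⟶ G) (s : G ⟶ X), Spl e π s := by
  obtain ⟨G, π, h⟩ := exists_isOrb (fun _ : Unit => e)
  obtain ⟨s, hs⟩ := h.desc e (fun _ => he)
  exact ⟨G, π, s, hs, h.ext (by rw [reassoc_of% hs, h.w (), Category.comp_id])⟩

end spl

variable {M : Type u} [Category.{v} M] [MonoidalCategory M] [SymmetricCategory M]
  {ν : M} {B : CommMon M}

/-- `B` is the free commutative monoid on `ν` -/
structure IsFree (γ : ν ⟶ B.X) : Prop where
  desc : ∀ {R : CommMon M} (h : ν ⟶ R.X), ∃ ψ : B ⟶ R, γ ≫ ah ψ = h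
  ext : ∀ {R : CommMon M} {ψ ψ' : B ⟶ R}, γ ≫ ah ψ = γ ≫ ah ψ' → ψ = ψ'

/-- the monomials -/
noncomputable def fg (γ : ν ⟶ B.X) (ι : Type) [Finite ι] : pw ι ν ⟶ B.X :=
  pwM ι γ ≫ bigMul ι B.X

section fg

variable (γ : ν ⟶ B.X) {ι κ : Type} [Finite ι] [Finite κ]

@[reassoc]
theorem pwE_fg (e : ι ≃ κ) : pwE ν e ≫ fg γ κ = fg γ ι := by
  rw [fg, ← pwM_pwE_assoc, pwE_bigMul, fg]

@[reassoc]
theorem fg_act : fg γ ι ▷ ν ≫ B.X ◁ γ ≫ μ = (β_ _ _).hom ≫ pwO ι ν ≫ fg γ (Option ι) := by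
  rw [fg, fg, pwO_pwM_assoc, pwO_bigMul, ← id_tensorHom B.X (bigMul ι B.X),
    tensorHom_comp_tensorHom_assoc, ← BraidedCategory.braiding_naturality_assoc,
    IsCommMonObj.mul_comm, Category.comp_id, tensorHom_def_assoc]

@[reassoc]
theorem fg_attGen {B' : CommMon M} (i : B ⟶ B') {Y Z : M} (γ' : Y ⟶ B'.X) (a : ν ⟶ Y) (b : Z ⟶ Y)
    (w : a ≫ γ' = γ ≫ ah i) : fg γ κ ▷ pw ι Z ≫ attGen (ah i) (b ≫ γ') ι =
      (pwM κ a ⊗ₘ pwM ι b) ≫ pwS κ ι Y ≫ fg γ' (κ ⊕ ι) := by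
  rw [fg, fg, pwS_pwM_assoc, pwS_bigMul, attGen, ← tensorHom_id, tensorHom_comp_tensorHom_assoc,
    tensorHom_comp_tensorHom_assoc, tensorHom_comp_tensorHom_assoc, Category.id_comp,
    Category.assoc, ← bigMap_bigMul]
  simp only [pwM, Category.assoc, ← bigMap_comp_assoc, w]

end fg

theorem IsFree.isAtt {γ : ν ⟶ B.X} (h : IsFree γ) {O : M} (hO : IsInitial O) :
    IsAtt (hO.to ν) (hO.to (CommMon.trivial M).X) (default : CommMon.trivial M ⟶ B) γ :=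
  ⟨hO.hom_ext _ _, fun _ k _ => by
    obtain ⟨ψ, hψ⟩ := h.desc k
    exact ⟨ψ, Subsingleton.elim _ _, hψ⟩, fun _ H => h.ext H⟩

/-- attaching a cell to a free commutative monoid -/
theorem IsFree.att {γ : ν ⟶ B.X} (h : IsFree γ) {A A' Y : M} {c : A ⟶ A'} {b : A ⟶ ν}
    {χ : A' ⟶ Y} {a : ν ⟶ Y} (H : IsPushout c b χ a) {B' : CommMon M} {i : B ⟶ B'}
    {χ' : A' ⟶ B'.X} (h' : IsAtt c (b ≫ γ) i χ') :
    ∃ γ' : Y ⟶ B'.X, IsFree γ' ∧ χ ≫ γ' = χ' ∧ a ≫ γ' = γ ≫ ah i := by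
  have w : c ≫ χ' = b ≫ γ ≫ ah i := by rw [h'.w, Category.assoc]
  refine ⟨H.desc χ' (γ ≫ ah i) w, ⟨fun k => ?_, fun {R ψ ψ'} e => ?_⟩, H.inl_desc _ _ _,
    H.inr_desc _ _ _⟩
  · obtain ⟨φ, hφ⟩ := h.desc (a ≫ k)
    obtain ⟨ψ, h1, h2⟩ := h'.desc φ (χ ≫ k) (by rw [H.w_assoc, Category.assoc, hφ])
    refine ⟨ψ, H.hom_ext ?_ ?_⟩
    · rw [H.inl_desc_assoc, h2]
    · rw [H.inr_desc_assoc, Category.assoc, ← ah_comp, h1, hφ]
  · refine h'.ext (h.ext ?_) ?_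
    · have := a ≫= e
      rwa [H.inr_desc_assoc, H.inr_desc_assoc, Category.assoc, Category.assoc, ← ah_comp,
        ← ah_comp] at this
    · have := χ ≫= e
      rwa [H.inl_desc_assoc, H.inl_desc_assoc] at this

variable [MonoidalClosed M] [HasColimitsOfSize.{0, 0} M] [HasZeroMorphisms M]

theorem exists_isFree (ν : M) : ∃ (B : CommMon M) (γ : ν ⟶ B.X), IsFree γ := by
  obtain ⟨B, i, γ, h⟩ := exists_isAtt (initial.to ν) (initial.to (CommMon.trivial M).X)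
  refine ⟨B, γ, fun k => ?_, fun H => h.ext (Subsingleton.elim _ _) H⟩
  obtain ⟨ψ, -, hψ⟩ := h.desc default k (initial.hom_ext _ _)
  exact ⟨ψ, hψ⟩

namespace IsFree

variable {γ : ν ⟶ B.X}

theorem isPres (h : IsFree γ) : IsPres (initial.to ν) (initial.to (𝟙_ M)) (fun _ => True)
    (fun ι _ => (λ_ _).hom ≫ fg γ ι) :=
  (h.isAtt initialIsInitial).isPres.congr (fun _ _ => trivial) fun ι _ _ => by
    have e : ah (default : CommMon.trivial M ⟶ B) = η := by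
      have := IsMonHom.one_hom (ah (default : CommMon.trivial M ⟶ B))
      exact (Category.id_comp _).symm.trans this
    rw [attGen, e]
    exact MonObj.one_mul_hom _

theorem exists_desc (h : IsFree γ) {Z : M} (φ : ∀ (ι : Type) [Finite ι], pw ι ν ⟶ Z)
    (hφ : ∀ (ι κ : Type) [Finite ι] [Finite κ] (e : ι ≃ κ), pwE ν e ≫ φ κ = φ ι) :
    ∃ f : B.X ⟶ Z, ∀ (ι : Type) [Finite ι], fg γ ι ≫ f = φ ι := by
  have hO : IsZero (⊥_ M) := (IsZero.iff_id_eq_zero _).mpr (initial.hom_ext _ _)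
  obtain ⟨f, hf⟩ := h.isPres.desc (fun ι _ => (λ_ _).hom ≫ φ ι)
    ⟨fun ι κ _ _ e _ => by rw [leftUnitor_naturality_assoc, hφ],
      fun ι _ _ => (isZero_tensor_left (isZero_tensor_right hO _) _).eq_of_src _ _⟩
  exact ⟨f, fun ι _ => (cancel_epi (λ_ _).hom).1 (by simpa using hf ι trivial)⟩

theorem hom_ext (h : IsFree γ) {Z : M} {f f' : B.X ⟶ Z}
    (H : ∀ (ι : Type) [Finite ι], fg γ ι ≫ f = fg γ ι ≫ f') : f = f' :=
  h.isPres.ext fun ι _ _ => by rw [Category.assoc, Category.assoc, H]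

theorem ext_right (h : IsFree γ) {W Z : M} {f f' : B.X ⊗ W ⟶ Z}
    (H : ∀ (ι : Type) [Finite ι], fg γ ι ▷ W ≫ f = fg γ ι ▷ W ≫ f') : f = f' :=
  h.isPres.ext_right (fun _ _ => trivial) fun ι _ _ => by
    rw [comp_whiskerRight, Category.assoc, Category.assoc, H]

theorem exists_wt (h : IsFree γ) (m : ℕ) : ∃ f : B.X ⟶ B.X, ∀ (ι : Type) [Finite ι],
    fg γ ι ≫ f = if Nat.card ι = m then fg γ ι else 0 :=
  h.exists_desc _ fun ι κ _ _ e => by
    rw [Nat.card_congr e]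
    split_ifs
    · exact pwE_fg γ e
    · exact comp_zero

/-- the projection to the monomials of degree `m` -/
noncomputable def wt (h : IsFree γ) (m : ℕ) : B.X ⟶ B.X := (h.exists_wt m).choose

@[reassoc]
theorem fg_wt (h : IsFree γ) {m : ℕ} (ι : Type) [Finite ι] (e : Nat.card ι = m) :
    fg γ ι ≫ h.wt m = fg γ ι := ((h.exists_wt m).choose_spec ι).trans (if_pos e)

@[reassoc]
theorem fg_wt_ne (h : IsFree γ) {m : ℕ} (ι : Type) [Finite ι] (e : Nat.card ι ≠ m) :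
    fg γ ι ≫ h.wt m = 0 := ((h.exists_wt m).choose_spec ι).trans (if_neg e)

@[reassoc]
theorem wt_wt (h : IsFree γ) (m : ℕ) : h.wt m ≫ h.wt m = h.wt m :=
  h.hom_ext fun ι _ => by
    by_cases e : Nat.card ι = m
    · rw [h.fg_wt_assoc ι e]
    · rw [h.fg_wt_ne_assoc ι e, h.fg_wt_ne ι e, zero_comp]

@[reassoc]
theorem act_wt (h : IsFree γ) (m : ℕ) :
    B.X ◁ γ ≫ μ ≫ h.wt (m + 1) = h.wt m ▷ ν ≫ B.X ◁ γ ≫ μ :=
  h.ext_right fun ι _ => by
    rw [fg_act_assoc, ← comp_whiskerRight_assoc]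
    by_cases e : Nat.card ι = m
    · rw [h.fg_wt ι e, h.fg_wt _ (by rw [Finite.card_option, e]), fg_act]
    · rw [h.fg_wt_ne ι e, h.fg_wt_ne _ (by rw [Finite.card_option]; omega), zero_whiskerRight']
      simp

@[reassoc]
theorem act_wt_zero (h : IsFree γ) : B.X ◁ γ ≫ μ ≫ h.wt 0 = 0 :=
  h.ext_right fun ι _ => by
    rw [fg_act_assoc, h.fg_wt_ne _ (by rw [Finite.card_option]; omega)]
    simp

/-- The extended powers split off the free commutative monoid. -/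
theorem exists_spl (h : IsFree γ) {T : Type} [Finite T] {D : M} {π : pw T ν ⟶ D}
    (hπ : IsOrb (fun σ : Equiv.Perm T => pwE ν σ) π) :
    ∃ (r : B.X ⟶ D) (s : D ⟶ B.X), Spl (h.wt (Nat.card T)) r s ∧ π ≫ s = fg γ T := by
  classical
  obtain ⟨s, hs⟩ := hπ.desc (fg γ T) (fun σ => pwE_fg γ σ)
  let φ : ∀ (ι : Type) [Finite ι], pw ι ν ⟶ D := fun ι _ =>
    if he : Nonempty (ι ≃ T) then pwE ν he.some ≫ π else 0
  have hhi : ∀ (ι : Type) [Finite ι] (e : ι ≃ T), φ ι = pwE ν e ≫ π := by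
    intro ι _ e
    have he : Nonempty (ι ≃ T) := ⟨e⟩
    simp only [φ, dif_pos he]
    conv_lhs => rw [← hπ.w (he.some.symm.trans e), ← pwE_trans_assoc]
    congr 2
    ext t
    simp
  have hlo : ∀ (ι : Type) [Finite ι], ¬ Nonempty (ι ≃ T) → φ ι = 0 := fun ι _ h => dif_neg h
  obtain ⟨r, hr⟩ := h.exists_desc φ fun ι κ _ _ e => by
    by_cases hk : Nonempty (κ ≃ T)
    · obtain ⟨e'⟩ := hk
      rw [hhi κ e', hhi ι (e.trans e'), pwE_trans, Category.assoc]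
    · rw [hlo κ hk, hlo ι (fun ⟨e'⟩ => hk ⟨e.symm.trans e'⟩), comp_zero]
  refine ⟨r, s, ⟨h.hom_ext fun ι _ => ?_, hπ.ext ?_⟩, hs⟩
  · rw [reassoc_of% (hr ι)]
    by_cases hk : Nonempty (ι ≃ T)
    · obtain ⟨e⟩ := hk
      rw [hhi ι e, Category.assoc, hs, pwE_fg, h.fg_wt ι (Nat.card_congr e)]
    · rw [hlo ι hk, zero_comp, h.fg_wt_ne ι (fun e => hk (Finite.card_eq.mp e))]
  · rw [reassoc_of% hs, hr, hhi T (Equiv.refl T), pwE_refl, Category.id_comp, Category.comp_id]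

end IsFree

end Vale.Agent.P257.V
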