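import Vale.Agent.P257.V.Cone

/-!
# P257, block V: stability in the filtration degree and good layers

Degrees are triples `(k, (a, T))`: dimension, weight, filtration degree.  `TCone c` fixes maps
`t f : R f ⟶ 𝟙` out of the cells of degree `(0, (0, f))` and their cones `K f`.

* `Neg c Y a` : `Y` vanishes in weight `a` and negative filtration degree;
* `Stab τ P Y a W` : in weight `a` the maps `t f` act bijectively between the degrees of `[W, P]`;
* `Good τ P L g r w` : in the degree `P`, and on objects which are stable on `[P - w, P]`, the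
  object `L` behaves like a sum of cells of weight `g`, degree `0` and dimension at least `r`.
-/

open CategoryTheory MonoidalCategory Limits Pointwise

namespace Vale.Agent.P257.V

open Vale.Agent.P257.C

universe v u

variable {C : Type u} [Category.{v} C] [MonoidalCategory C] [SymmetricCategory C] [Preadditive C]
  [MonoidalPreadditive C] {Λ : Type} [AddCommGroup Λ] (c : Cells C (ℤ × (Λ × ℤ)))

/-- The maps which raise the filtration degree, with their cones. -/
structure TCone where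
  /-- the unit in filtration degree `f` -/
  R : ℕ → C
  /-- it is a cell -/
  e : ∀ f : ℕ, R f ≅ c.obj (0, (0, (f : ℤ)))
  /-- the map to the unit -/
  t : ∀ f : ℕ, R f ⟶ 𝟙_ C
  /-- its cone -/
  K : ℕ → C
  cone : ∀ f : ℕ, IsCone c (t f) (K f)

/-- vanishing in negative filtration degrees -/
def Neg (Y : C) (a : Λ) : Prop := ∀ l T : ℤ, T < 0 → c.Van Y (l, (a, T))

variable {c} (τ : TCone c) (P : ℤ)

/-- stability on the window `[W, P]` -/
def Stab (Y : C) (a : Λ) (W : ℤ) : Prop :=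
  ∀ (l T : ℤ) (f : ℕ), W + f ≤ T → T ≤ P → c.Van (Y ⊗ τ.K f) (l, (a, T))

/-- the degrees of weight `g` and filtration degree in `[0, w]` or above `P` -/
def Win (g : Λ) (w : ℕ) : Set (ℤ × (Λ × ℤ)) :=
  {x | x.2.1 = g ∧ 0 ≤ x.2.2 ∧ (x.2.2 ≤ w ∨ P < x.2.2)}

/-- the degrees of weight `g` and filtration degree `T` -/
def At (g : Λ) (T : ℤ) : Set (ℤ × (Λ × ℤ)) := {x | x.2 = (g, T)}

/-- the degrees of weight `g` and filtration degree above `P` -/
def High (g : Λ) : Set (ℤ × (Λ × ℤ)) := {x | x.2.1 = g ∧ P < x.2.2}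

/-- good layers -/
structure Good (L : C) (g : Λ) (r : ℤ) (w : ℕ) : Prop where
  tc : c.TConn L (Win P g w)
  fine : ∀ (Y : C) (a : Λ) (k : ℤ), Neg c Y (a - g) → Stab τ P Y (a - g) (P - w) →
    (∀ l ≤ k - r, c.Van Y (l, (a - g, P))) → c.Van (Y ⊗ L) (k, (a, P))

variable {τ P} {Y Y' L L' A B D : C} {a g g' : Λ} {r r' W W' k l T : ℤ} {w w' : ℕ}

omit [AddCommGroup Λ] in
theorem Win.mono (h : w ≤ w') : Win P g w ⊆ Win P g w' := fun _ hx =>
  ⟨hx.1, hx.2.1, hx.2.2.imp_left fun k => k.trans (by exact_mod_cast h)⟩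

omit [AddCommGroup Λ] in
theorem at_subset_win (h : 0 ≤ T) (h' : T ≤ w) : At g T ⊆ Win P g w := by
  rintro ⟨x, y⟩ rfl
  exact ⟨rfl, h, Or.inl h'⟩

omit [AddCommGroup Λ] in
theorem high_subset_win (h : 0 ≤ P) : High P g ⊆ Win P g w := fun _ hx =>
  ⟨hx.1, h.trans hx.2.le, Or.inr hx.2⟩

omit [AddCommGroup Λ] in
theorem up_subset_at : Up (g, T) r ⊆ At g T := fun _ hx => hx.1

omit [AddCommGroup Λ] in
theorem at_subset_high (h : P < T) : At g T ⊆ High P g := by
  rintro ⟨x, y⟩ rfl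
  exact ⟨rfl, h⟩

theorem win_add : Win P g w + Win P g' w' ⊆ Win P (g + g') (w + w') := by
  rintro _ ⟨x, ⟨h1, h2, h3⟩, y, ⟨k1, k2, k3⟩, rfl⟩
  refine ⟨congrArg₂ (· + ·) h1 k1, add_nonneg h2 k2, ?_⟩
  change x.2.2 + y.2.2 ≤ ((w + w' : ℕ) : ℤ) ∨ P < x.2.2 + y.2.2
  push_cast
  omega

theorem at_add {T' : ℤ} : At g T + At g' T' ⊆ At (g + g') (T + T') := by
  rintro _ ⟨x, h, y, k, rfl⟩
  exact congrArg₂ (· + ·) h k

omit [SymmetricCategory C] in
theorem TCone.van_R_iff (τ : TCone c) (f : ℕ) :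
    c.Van (Y ⊗ τ.R f) (l, (a, T)) ↔ c.Van Y (l, (a, T - f)) := by
  have e : ((l, (a, T - f)) : ℤ × (Λ × ℤ)) = (l, (a, T)) - (0, (0, (f : ℤ))) := by simp
  rw [e, ← Cells.Van.tensor_iff]
  exact ⟨fun h => h.of_iso (whiskerLeftIso _ (τ.e f)),
    fun h => h.of_iso (whiskerLeftIso _ (τ.e f).symm)⟩

omit [SymmetricCategory C] in
theorem TCone.tConn_R (τ : TCone c) (f : ℕ) : c.TConn (τ.R f) (At 0 f) :=
  ((Cells.TConn.cell _).of_iso (τ.e f).symm).mono (by rintro _ rfl; rfl)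

omit [SymmetricCategory C] in
theorem TCone.tConn_K (τ : TCone c) (P : ℤ) (f : ℕ) : c.TConn (τ.K f) (Win P 0 f) :=
  (τ.cone f).tConn_cone (Cells.TConn.unit.mono (by
    rintro _ rfl
    exact ⟨rfl, le_rfl, Or.inl (Int.natCast_nonneg f)⟩)) (τ.tConn_R f)
    (fun q hq => at_subset_win (Int.natCast_nonneg f) le_rfl hq)

namespace Neg

omit [SymmetricCategory C] [MonoidalPreadditive C] in
theorem of_iso (h : Neg c Y a) (i : Y ≅ Y') : Neg c Y' a := fun l T hT => (h l T hT).of_iso i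

omit [SymmetricCategory C] [MonoidalPreadditive C] in
theorem tensor (h : Neg c Y (a - g)) (k : c.TConn L (Win P g w)) : Neg c (Y ⊗ L) a := by
  intro l T hT
  refine k Y _ ?_
  rintro ⟨x, y, z⟩ ⟨rfl, h2, -⟩
  exact h (l - x) (T - z) (by dsimp only at h2; omega)

omit [SymmetricCategory C] in
theorem tensor_K (h : Neg c Y a) (f : ℕ) : Neg c (Y ⊗ τ.K f) a :=
  tensor (by rwa [sub_zero]) (τ.tConn_K 0 f)

omit [SymmetricCategory C] [MonoidalPreadditive C] in
theorem cone {i : A ⟶ B} (h : IsCone c i D) (hA : Neg c A a) (hD : Neg c D a) : Neg c B a :=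
  fun l T hT => h.van_tgt' (hA l T hT) (hD l T hT)

end Neg

namespace Stab

omit [SymmetricCategory C] [MonoidalPreadditive C] in
theorem mono (h : Stab τ P Y a W) (k : W ≤ W') : Stab τ P Y a W' :=
  fun l T f h1 h2 => h l T f (by omega) h2

omit [SymmetricCategory C] [MonoidalPreadditive C] in
theorem of_iso (h : Stab τ P Y a W) (i : Y ≅ Y') : Stab τ P Y' a W :=
  fun l T f h1 h2 => (h l T f h1 h2).of_iso (whiskerRightIso i _)

theorem tensor (h0 : Neg c Y (a - g)) (h : Stab τ P Y (a - g) W) (k : c.TConn L (Win P g w)) :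
    Stab τ P (Y ⊗ L) a (W + w) := by
  intro l T f h1 h2
  refine Cells.Van.of_iso (Y := (Y ⊗ τ.K f) ⊗ L) (k _ _ ?_)
    (α_ _ _ _ ≪≫ whiskerLeftIso _ (β_ _ _) ≪≫ (α_ _ _ _).symm)
  rintro ⟨x, y, z⟩ ⟨rfl, h3, h4⟩
  dsimp only at h3 h4
  rcases h4 with h4 | h4
  · exact h (l - x) (T - z) f (by omega) (by omega)
  · exact h0.tensor_K f (l - x) (T - z) (by omega)

omit [MonoidalPreadditive C] in
theorem cone {i : A ⟶ B} (h : IsCone c i D) (hA : Stab τ P A a W) (hD : Stab τ P D a W) :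
    Stab τ P B a W :=
  fun l T f h1 h2 => (h.whiskerRight (τ.K f)).van_tgt' (hA l T f h1 h2) (hD l T f h1 h2)

omit [SymmetricCategory C] [MonoidalPreadditive C] in
theorem inj (h : Stab τ P Y a W) (f : ℕ) (h1 : W + f ≤ T) (h2 : T ≤ P) :
    Inj c (Y ◁ τ.t f) (l, (a, T)) := (τ.cone f).inj Y _ _ (h _ T f h1 h2)

omit [SymmetricCategory C] [MonoidalPreadditive C] in
theorem surj (h : Stab τ P Y a W) (f : ℕ) (h1 : W + f ≤ T) (h2 : T ≤ P) :
    Surj c (Y ◁ τ.t f) (l, (a, T)) := (τ.cone f).surj Y _ _ (h _ T f h1 h2)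

omit [SymmetricCategory C] in
/-- vanishing descends from the top of the window -/
theorem down (h : Stab τ P Y a W) (h1 : W ≤ T) (h2 : T ≤ P) (hv : c.Van Y (l, (a, P))) :
    c.Van Y (l, (a, T)) := by
  obtain ⟨f, rfl⟩ : ∃ f : ℕ, T = P - f := ⟨(P - T).toNat, by omega⟩
  exact (τ.van_R_iff f).1 ((h.inj f (by omega) le_rfl).van (hv.of_iso (ρ_ _).symm))

omit [SymmetricCategory C] in
/-- an object which vanishes up to the degree `P` is stable -/
theorem of_van (h : ∀ l T : ℤ, T ≤ P → c.Van Y (l, (a, T))) : Stab τ P Y a W :=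
  fun l T f _ h2 => (τ.cone f).van_cone ((h l T h2).of_iso (ρ_ _).symm)
    ((τ.van_R_iff f).2 (h _ _ (by omega)))

end Stab

namespace Good

omit [SymmetricCategory C] [MonoidalPreadditive C] in
theorem mono (h : Good τ P L g r w) (hr : r' ≤ r) (hw : w ≤ w') : Good τ P L g r' w' :=
  ⟨h.tc.mono (Win.mono hw), fun Y a k h0 h1 h2 =>
    h.fine Y a k h0 (h1.mono (by omega)) fun l hl => h2 l (by omega)⟩

omit [SymmetricCategory C] [MonoidalPreadditive C] in
theorem of_retract (h : Good τ P L' g r w) (i : L ⟶ L') (q : L' ⟶ L) [IsIso (i ≫ q)] :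
    Good τ P L g r w :=
  ⟨h.tc.of_retract i q, fun Y a k h0 h1 h2 =>
    have : IsIso (Y ◁ i ≫ Y ◁ q) := by
      rw [← MonoidalCategory.whiskerLeft_comp]
      infer_instance
    (h.fine Y a k h0 h1 h2).of_retract (Y ◁ i) (Y ◁ q)⟩

omit [SymmetricCategory C] [MonoidalPreadditive C] in
theorem of_iso (h : Good τ P L g r w) (i : L ≅ L') : Good τ P L' g r w :=
  ⟨h.tc.of_iso i, fun Y a k h0 h1 h2 => (h.fine Y a k h0 h1 h2).of_iso (whiskerLeftIso Y i)⟩

omit [SymmetricCategory C] [MonoidalPreadditive C] in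
theorem of_tEq {j : L ⟶ L'} (hj : c.TEq j) : Good τ P L g r w ↔ Good τ P L' g r w :=
  ⟨fun h => ⟨(Cells.TConn.of_tEq hj).1 h.tc, fun Y a k h0 h1 h2 =>
      (Cells.Van.of_tEq hj).1 (h.fine Y a k h0 h1 h2)⟩,
    fun h => ⟨(Cells.TConn.of_tEq hj).2 h.tc, fun Y a k h0 h1 h2 =>
      (Cells.Van.of_tEq hj).2 (h.fine Y a k h0 h1 h2)⟩⟩

omit [SymmetricCategory C] [MonoidalPreadditive C] in
theorem of_empty (h : c.TConn L ∅) : Good τ P L g r w :=
  ⟨h.mono (Set.empty_subset _), fun Y _ _ _ _ _ => h Y _ (by simp)⟩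

omit [SymmetricCategory C] [MonoidalPreadditive C] in
theorem of_high (hP : 0 ≤ P) (h : c.TConn L (High P g)) : Good τ P L g r w := by
  refine ⟨h.mono (high_subset_win hP), fun Y a k h0 _ _ => h Y _ ?_⟩
  rintro ⟨x, y, z⟩ ⟨rfl, h2⟩
  exact h0 (k - x) (P - z) (by dsimp only at h2; omega)

omit [SymmetricCategory C] in
theorem of_conn (h : c.Conn L (g, T) r) (h0 : 0 ≤ T) (h1 : T ≤ w) : Good τ P L g r w :=
  ⟨Cells.TConn.mono h (up_subset_at.trans (at_subset_win h0 h1)), fun Y a k _ k1 k2 =>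
    h.van fun l hl => k1.down (T := P - T) (by omega) (by omega) (k2 l hl)⟩

omit [SymmetricCategory C] [MonoidalPreadditive C] in
theorem cone {i : A ⟶ B} (h : IsCone c i D) (hA : Good τ P A g r w) (hD : Good τ P D g r w) :
    Good τ P B g r w :=
  ⟨h.tConn_tgt hA.tc hD.tc, fun Y a k h0 h1 h2 =>
    h.van_tgt (hA.fine Y a k h0 h1 h2) (hD.fine Y a k h0 h1 h2)⟩

omit [SymmetricCategory C] [MonoidalPreadditive C] in
theorem chain {F G : ℕ → C} {i : ∀ k, F k ⟶ F (k + 1)} {m : ℕ} (n : ℕ) (hn : m ≤ n)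
    (h : ∀ k, m ≤ k → k < n → IsCone c (i k) (G k)) (h0 : Good τ P (F m) g r w)
    (h1 : ∀ k, m ≤ k → k < n → Good τ P (G k) g r w) : Good τ P (F n) g r w := by
  induction n, hn using Nat.le_induction with
  | base => exact h0
  | succ n hn ih =>
    exact cone (h n hn (by omega)) (ih (fun k a b => h k a (by omega))
      fun k a b => h1 k a (by omega)) (h1 n hn (by omega))

omit [SymmetricCategory C] in
theorem unit : Good τ P (𝟙_ C) 0 0 0 := of_conn (T := 0) Cells.Conn.unit le_rfl le_rfl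

theorem tensor (h : Good τ P L g r w) (h' : Good τ P L' g' r' w') :
    Good τ P (L ⊗ L') (g + g') (r + r') (w + w') := by
  refine ⟨(h.tc.tensor h'.tc).mono win_add, fun Y a k h0 h1 h2 => ?_⟩
  have e : a - (g + g') = a - g' - g := by abel
  rw [e] at h0 h1 h2
  refine (h'.fine (Y ⊗ L) a k (h0.tensor h.tc) ((Stab.tensor h0 h1 h.tc).mono ?_)
    fun l hl => h.fine Y _ l h0 (h1.mono ?_) fun m hm => h2 m (by omega)).of_iso (α_ _ _ _)
  · push_cast; omega
  · push_cast; omega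

theorem tpow (h : Good τ P L g r w) (n : ℕ) :
    Good τ P (P251.H.tpow L n) (n • g) (n * r) (n * w) := by
  induction n with
  | zero =>
    rw [zero_smul, Nat.cast_zero, zero_mul, zero_mul]
    exact unit
  | succ n ih =>
    rw [succ_nsmul', Nat.cast_succ, add_mul, one_mul, add_comm _ r, Nat.succ_mul, add_comm _ w]
    exact h.tensor ih

/-- The layers of a pair of cells: `L` is the cone of `m` delayed by `f`. -/
theorem koszul {Q K : C} {m : Q ⟶ D} (f : ℕ) (hK : IsCone c m K) (kK : c.Conn K (g, 0) r)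
    (hQ : c.TConn Q (At g 0)) (hD : c.TConn D (At g 0))
    (hL : IsCone c (Q ◁ τ.t f ≫ (ρ_ Q).hom ≫ m) L) : Good τ P L g r f := by
  refine ⟨hL.tConn_cone (hD.mono (at_subset_win le_rfl (Int.natCast_nonneg f)))
    ((hQ.tensor (τ.tConn_R f)).mono at_add) fun q hq => ?_, fun Y a k h0 h1 h2 => ?_⟩
  · rw [add_zero, zero_add] at hq
    exact at_subset_win (Int.natCast_nonneg f) le_rfl hq
  · have s : Stab τ P (Y ⊗ Q) a (P - f + (0 : ℕ)) :=
      Stab.tensor h0 h1 (hQ.mono (at_subset_win le_rfl le_rfl))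
    have v : c.Van (Y ⊗ K) (k, (a, P)) := kK.van fun l hl => by simpa using h2 l hl
    have w : (α_ Y Q (τ.R f)).symm.hom ≫ (Y ⊗ Q) ◁ τ.t f ≫ (α_ Y Q (𝟙_ C)).hom =
        Y ◁ Q ◁ τ.t f := by simp
    refine hL.van Y k _ ?_ ?_
    · rw [MonoidalCategory.whiskerLeft_comp, MonoidalCategory.whiskerLeft_comp]
      exact ((s.surj f (by simp) le_rfl).of_iso _ _ w).comp
        ((Surj.of_isIso _).comp (hK.surj Y k _ v))
    · rw [MonoidalCategory.whiskerLeft_comp, MonoidalCategory.whiskerLeft_comp]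
      exact ((s.inj f (by simp) le_rfl).of_iso _ _ w).comp
        ((Inj.of_isIso _).comp (hK.inj Y _ _ (by rwa [sub_add_cancel])))

end Good

end Vale.Agent.P257.V
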