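import Vale.Agent.P257.V.Env
import Vale.Agent.P257.W.World
import Vale.Agent.P257.L.SCLoc

/-!
# P257, block V: the stable category `EE p` satisfies the hypotheses of the counting lemma
-/

open CategoryTheory MonoidalCategory Limits

namespace Vale.Agent.P257.V

open Vale.Agent.P251.H Vale.Agent.P251.H.StabInput Vale.Agent.P257.C Vale.Agent.P257.K
open Vale.Agent.P257.M Vale.Agent.P257.F Vale.Agent.P257.W

variable {p : ℕ}

theorem envE (p : ℕ) : Env (sE p) (cE p) (1, 0) where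
  th := Th.of_loc (L.scLoc (De p))
  surj X := ⟨X.obj, ⟨Iso.refl _⟩⟩
  susp := ⟨(SIso p).symm⟩
  rep d Q x := by
    obtain ⟨X, y, e, h1, h2⟩ := rep1 (k := d.1) (g := d.2) x
    exact ⟨X, e.inv, y, h1.isCell, by rw [h2, e.inv_hom_id_assoc]⟩

theorem invLtE (p : ℕ) : InvLt (EE p) p := fun q hq h1 h2 X => by
  have := Smooth.isIso (p := p) (m := q) ⟨hq.ne_zero, fun r hr k => by
    obtain rfl := (Nat.prime_dvd_prime_iff_eq hr hq).1 k
    exact ⟨h1, h2⟩⟩ X
  rwa [natCast_zsmul] at this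

theorem worldE (hp : p.Prime) {τ : TCone (cE p)}
    (e : ∀ f : ℕ, τ.R f ≅ (sE p).obj (rp (0, (f : ℤ))))
    (h : ∀ f : ℕ, (e f).hom ≫ (sE p).map (t1 f) = τ.t f) : World (sE p) (cE p) τ p :=
  World.of_env hp (L.scLoc (De p)) (envE p) (invLtE p)
    (fun d g o => by
      have := hasSign_cE (p := p) d g
      rwa [Int.negOnePow_odd d o] at this)
    (fun h => h.iso p) (fun g => ⟨rpIso p g⟩)
    (dl_of_eq e fun f => (congrArg _ (Category.comp_id _)).trans (h f)) bij_cell

end Vale.Agent.P257.V
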