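import Vale.Agent.P257.V.Prof

/-!
# P257, block V: the counting lemma for the four kinds of cells

`Filt c B B' L E` : a filtration of `B'` starting with `B`, with layers `B ⊗ L k` and with the cones
`E k` of the maps from the stages to `B'`.
-/

open CategoryTheory MonoidalCategory Limits Pointwise

namespace Vale.Agent.P257.V

open Vale.Agent.P257.C

universe v u

variable {C : Type u} [Category.{v} C] [MonoidalCategory C] [SymmetricCategory C] [Preadditive C]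
  [MonoidalPreadditive C] {Λ : Type} [AddCommGroup Λ]

/-- an arity filtration -/
def Filt {Γ : Type} [AddCommGroup Γ] (c : Cells C (ℤ × Γ)) (B B' : C) (L E : ℕ → C) : Prop :=
  ∃ (F : ℕ → C) (_ : B ≅ F 0) (i : ∀ k, F k ⟶ F (k + 1)) (j : ∀ k, F k ⟶ B'),
    (∀ k, IsCone c (i k) (B ⊗ L (k + 1))) ∧ ∀ k, IsCone c (j k) (E k)

/-- `A` is dominated by `B` -/
def Dom {Δ : Type} [AddCommGroup Δ] (c : Cells C Δ) (A B : C) : Prop :=
  ∀ (Y : C) (d : Δ), c.Van (Y ⊗ B) d → c.Van (Y ⊗ A) d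

omit [SymmetricCategory C] [MonoidalPreadditive C] in
theorem Dom.of_retract {Δ : Type} [AddCommGroup Δ] {c : Cells C Δ} {A B : C} (i : A ⟶ B)
    (q : B ⟶ A) [IsIso (i ≫ q)] : Dom c A B := fun Y _ h =>
  have : IsIso (Y ◁ i ≫ Y ◁ q) := by
    rw [← MonoidalCategory.whiskerLeft_comp]
    infer_instance
  h.of_retract (Y ◁ i) (Y ◁ q)

omit [SymmetricCategory C] [MonoidalPreadditive C] in
theorem Dom.tConn {Δ : Type} [AddCommGroup Δ] {c : Cells C Δ} {A B : C} (k : Dom c A B)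
    {P : Set Δ} (h : c.TConn B P) : c.TConn A P := fun Y d l => k Y d (h Y d l)

variable {c : Cells C (ℤ × (Λ × ℤ))} {τ : TCone c} {π : Par Λ} {B B' : C} {L E : ℕ → C} {g : Λ}
  {W N n d : ℤ} {w f : ℕ}

omit [SymmetricCategory C] [MonoidalPreadditive C] in
theorem Good.of_dom {P r : ℤ} {A A' : C} (h : Good τ P A' g r w) (k : Dom c A A') :
    Good τ P A g r w :=
  ⟨k.tConn h.tc, fun Y a l h0 h1 h2 => k Y _ (h.fine Y a l h0 h1 h2)⟩

/-- Layers in arities `u p + r`, from the arities at most `p`. -/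
theorem good_of_dom {P : ℤ} {p m : ℕ} (hp : 0 < p) {ρ : ℤ} {ρ' : ℕ → ℤ}
    (hret : ∀ k, p < k → k ≤ m → Dom c (L k) (L p ⊗ L (k - p)))
    (h1 : Good τ P (L p) (p • g) ρ w) (h2 : ∀ r, 1 ≤ r → r < p → Good τ P (L r) (r • g) (ρ' r) w)
    (h0 : ρ' 0 = 0) (u r : ℕ) (hr : r < p) (hk : 1 ≤ u * p + r) (hm : u * p + r ≤ m) :
    Good τ P (L (u * p + r)) ((u * p + r) • g) (u * ρ + ρ' r) ((u + 1) * w) := by
  induction u with
  | zero =>
    simp only [zero_mul, zero_add, Nat.cast_zero, one_mul] at hk ⊢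
    exact h2 r hk hr
  | succ u ih =>
    have e1 : (u + 1) * p + r = p + (u * p + r) := by ring
    rw [e1] at hm ⊢
    by_cases h : u * p + r = 0
    · have hu : u = 0 := by
        rcases Nat.mul_eq_zero.1 (show u * p = 0 by omega) with h | h <;> omega
      have hr0 : r = 0 := by omega
      subst hu hr0
      simp only [zero_mul, add_zero, zero_add, Nat.cast_one, one_mul, h0]
      exact h1.mono le_rfl (by omega)
    · have k := hret (p + (u * p + r)) (by omega) hm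
      rw [Nat.add_sub_cancel_left] at k
      rw [add_smul]
      refine ((h1.tensor (ih (by omega) (by omega))).of_dom k).mono (le_of_eq ?_) (le_of_eq ?_)
      · push_cast; ring
      · ring

namespace Prof

theorem filt (h : Prof τ π B W N) (hF : Filt c B B' L E) (hw : W + w ≤ π.P) (hn : 0 ≤ n)
    (fin : ∀ a : Λ, π.ℓ a ≤ π.Lm → ∃ m : ℕ, (∀ l T : ℤ, T ≤ π.P → c.Van (E m) (l, (a, T))) ∧
      ∀ k, 1 ≤ k → k ≤ m → ∃ (g : Λ) (r : ℤ), 0 ≤ π.ℓ g ∧ Good τ π.P (L k) g r w ∧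
        π.bd g - π.p * n ≤ π.p * r) :
    Prof τ π B' (W + w) (N + n) := by
  obtain ⟨F, e, i, j, hi, hj⟩ := hF
  exact h.attach e hi hj hw hn fin

/-- Cells of filtration degree zero for which the obvious connectivity suffices. -/
theorem crude (h : Prof τ π B W N) (hF : Filt c B B' L E) (hW : W ≤ π.P) (hg : 0 ≤ π.ℓ g)
    (hE : ∀ a : Λ, π.ℓ a ≤ π.Lm → ∀ l T : ℤ, T ≤ π.P → c.Van (E π.Lm) (l, (a, T)))
    (hL : ∀ k : ℕ, 1 ≤ k → k ≤ π.Lm → c.Conn (L k) (k • g, 0) (k * d))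
    (hd : π.bd g ≤ π.p * d) : Prof τ π B' W N := by
  have := h.filt (w := 0) (n := 0) hF (by simpa) le_rfl fun a ha => ⟨π.Lm, hE a ha, fun k k1 k2 =>
    ⟨k • g, k * d, by rw [map_nsmul]; exact nsmul_nonneg hg k,
      Good.of_conn (hL k k1 k2) le_rfl le_rfl, by
        rw [map_nsmul, nsmul_eq_mul]
        have := mul_le_mul_of_nonneg_left hd (Int.natCast_nonneg k)
        linarith⟩⟩
  simpa using this

/-- Odd cells of filtration degree zero. -/
theorem odd (h : Prof τ π B W N) (hF : Filt c B B' L E) (hW : W ≤ π.P) (hg : 0 ≤ π.ℓ g)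
    (hE : ∀ a : Λ, π.ℓ a ≤ π.Lm → ∀ l T : ℤ, T ≤ π.P → c.Van (E π.Lm) (l, (a, T)))
    (hret : ∀ k, π.p < k → k ≤ π.Lm → Dom c (L k) (L π.p ⊗ L (k - π.p)))
    (h1 : c.Conn (L 1) (g, 0) d) (h2 : ∀ r, 2 ≤ r → r < π.p → c.TConn (L r) ∅)
    (h3 : c.Conn (L π.p) (π.p • g, 0) (π.p * d + π.p - 2))
    (hd : π.bd g ≤ π.p * (d + 1) - 3) : Prof τ π B' W (N + 1) := by
  have := h.filt (w := 0) (n := 1) hF (by simpa) zero_le_one fun a ha =>
    ⟨π.Lm, hE a ha, fun k k1 k2 => by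
      obtain ⟨u, r, hr, rfl⟩ : ∃ u r, r < π.p ∧ k = u * π.p + r :=
        ⟨k / π.p, k % π.p, Nat.mod_lt _ π.p_pos, (Nat.div_add_mod' k π.p).symm⟩
      have k3 := good_of_dom (τ := τ) (P := π.P) (w := 0) (g := g) π.p_pos
        (ρ' := fun r => if r ≤ 1 then r * d else r * (d + 1)) hret
        (Good.of_conn h3 le_rfl le_rfl) (fun r r1 r2 => by
          by_cases h : r ≤ 1
          · obtain rfl : r = 1 := by omega
            simpa using Good.of_conn h1 le_rfl le_rfl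
          · exact Good.of_empty (h2 r (by omega) r2)) (by simp) u r hr k1 k2
      refine ⟨_, _, by rw [map_nsmul]; exact nsmul_nonneg hg _, k3.mono le_rfl (by simp), ?_⟩
      rw [map_nsmul, nsmul_eq_mul]
      have k4 := mul_le_mul_of_nonneg_left hd (Int.natCast_nonneg (u * π.p + r))
      have k5 : (0 : ℤ) ≤ u * π.p := by positivity
      have k6 : (0 : ℤ) ≤ π.p := Int.natCast_nonneg _
      have k7 : (0 : ℤ) ≤ r := Int.natCast_nonneg _
      push_cast at k4 ⊢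
      split_ifs with h
      · have h' : r = 0 ∨ r = 1 := by omega
        rcases h' with rfl | rfl
        · push_cast at k4 ⊢
          nlinarith
        · push_cast at k4 ⊢
          nlinarith
      · nlinarith⟩
  simpa using this

/-- Cells of positive filtration degree whose higher layers vanish. -/
theorem top (h : Prof τ π B W N) (hF : Filt c B B' L E) (hW : W + f ≤ π.P) (hg : 0 ≤ π.ℓ g)
    (hE : ∀ a : Λ, π.ℓ a ≤ π.Lm → ∀ l T : ℤ, T ≤ π.P → c.Van (E π.P) (l, (a, T)))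
    (h1 : c.Conn (L 1) (g, f) d) (h2 : ∀ r, 2 ≤ r → r ≤ π.P → c.TConn (L r) ∅) (hn : 0 ≤ n)
    (hd : π.bd g - π.p * n ≤ π.p * d) : Prof τ π B' (W + f) (N + n) :=
  h.filt hF hW hn fun a ha => ⟨π.P, hE a ha, fun k k1 k2 => by
    by_cases h : k = 1
    · subst h
      exact ⟨g, d, hg, Good.of_conn h1 (Int.natCast_nonneg f) le_rfl, hd⟩
    · exact ⟨g, d, hg, Good.of_empty (h2 k (by omega) k2), hd⟩⟩

/-- Pairs of cells. -/
theorem pair (h : Prof τ π B W N) (hF : Filt c B B' L E) {s : ℕ} (hs : π.Lm < s * π.p)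
    (hW : W + (s * f : ℕ) ≤ π.P) (hg : 0 ≤ π.ℓ g)
    (hE : ∀ a : Λ, π.ℓ a ≤ π.Lm → ∀ l T : ℤ, T ≤ π.P → c.Van (E π.Lm) (l, (a, T)))
    (hret : ∀ k, π.p < k → k ≤ π.Lm → Dom c (L k) (L π.p ⊗ L (k - π.p)))
    (h1 : ∀ r, 1 ≤ r → r < π.p → ∀ ρ : ℤ, Good τ π.P (L r) (r • g) ρ f)
    (h2 : Good τ π.P (L π.p) (π.p • g) (π.p * d + 2 * π.p - 3) f)
    (hd : π.bd g ≤ π.p * d + 2 * π.p - 3) : Prof τ π B' (W + (s * f : ℕ)) N := by
  have := h.filt (w := s * f) (n := 0) hF hW le_rfl fun a ha =>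
    ⟨π.Lm, hE a ha, fun k k1 k2 => by
      obtain ⟨u, r, hr, rfl⟩ : ∃ u r, r < π.p ∧ k = u * π.p + r :=
        ⟨k / π.p, k % π.p, Nat.mod_lt _ π.p_pos, (Nat.div_add_mod' k π.p).symm⟩
      have k3 := good_of_dom (τ := τ) (P := π.P) (w := f) (g := g) π.p_pos
        (ρ' := fun r => r * (π.p * d + 2 * π.p - 3) + r * |π.p * d + 2 * π.p - 3|) hret h2
        (fun r r1 r2 => h1 r r1 r2 _) (by simp) u r hr k1 k2
      have k8 : u < s := by
        by_contra k9
        have := Nat.mul_le_mul_right π.p (not_lt.1 k9)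
        omega
      refine ⟨_, _, by rw [map_nsmul]; exact nsmul_nonneg hg _,
        k3.mono le_rfl (Nat.mul_le_mul_right f k8), ?_⟩
      rw [map_nsmul, nsmul_eq_mul]
      have k4 := mul_le_mul_of_nonneg_left hd (Int.natCast_nonneg (u * π.p + r))
      generalize (π.p : ℤ) * d + 2 * π.p - 3 = x at k4 ⊢
      have k5 : (1 : ℤ) ≤ π.p := by exact_mod_cast π.p_pos
      have k6 : (0 : ℤ) ≤ r := Int.natCast_nonneg _
      have k7 : (r : ℤ) * x ≤ π.p * (r * x + r * |x|) := by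
        have a1 : 0 ≤ x + |x| := by linarith [neg_abs_le x]
        have a2 : x ≤ x + |x| := by linarith [abs_nonneg x]
        calc (r : ℤ) * x ≤ r * (x + |x|) := mul_le_mul_of_nonneg_left a2 k6
          _ ≤ π.p * (r * (x + |x|)) := le_mul_of_one_le_left (mul_nonneg k6 a1) k5
          _ = _ := by ring
      push_cast at k4 ⊢
      nlinarith⟩
  simpa using this

end Prof

end Vale.Agent.P257.V
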