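import Vale.Agent.P257.V.Free

/-!
# P257, block V: the extended powers of a mapping cone

For the mapping cone `Y` of `b : A ⟶ ν` the extended power `D_k Y` has a filtration with the layers
`D_{k - j} ν ⊗ D_j (A ⊗ S)`; it is the part of degree `k` of the arity filtration of the free
commutative monoid on `Y` over the free commutative monoid on `ν`.
-/

open CategoryTheory MonoidalCategory Limits MonObj

namespace Vale.Agent.P257.V

open Vale.Agent.P251.H Vale.Agent.P251.H.StabInput Vale.Agent.P257.A Vale.Agent.P257.F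

universe v u

variable {M : Type u} [Category.{v} M] [MonoidalCategory M] [SymmetricCategory M]
  [MonoidalClosed M] [HasColimitsOfSize.{0, 0} M] [HasZeroMorphisms M]
  {ν A A' : M} {B : CommMon M} {γ : ν ⟶ B.X} {c : A ⟶ A'} {b : A ⟶ ν}

namespace IsFree

/-- the projection to the degree `K - n` -/
noncomputable def tw (h : IsFree γ) (K n : ℕ) : B.X ⟶ B.X := if n ≤ K then h.wt (K - n) else 0

theorem tw_of_le (h : IsFree γ) {K n : ℕ} (e : n ≤ K) : h.tw K n = h.wt (K - n) := if_pos e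

theorem tw_of_lt (h : IsFree γ) {K n : ℕ} (e : ¬ n ≤ K) : h.tw K n = 0 := if_neg e

@[reassoc]
theorem tw_tw (h : IsFree γ) (K n : ℕ) : h.tw K n ≫ h.tw K n = h.tw K n := by
  by_cases e : n ≤ K
  · rw [h.tw_of_le e, h.wt_wt]
  · rw [h.tw_of_lt e, comp_zero]

@[reassoc]
theorem act_tw (h : IsFree γ) (b : A ⟶ ν) (K n : ℕ) :
    (B.X ◁ (b ≫ γ) ≫ μ) ≫ h.tw K n = h.tw K (n + 1) ▷ A ≫ B.X ◁ (b ≫ γ) ≫ μ := by
  simp only [MonoidalCategory.whiskerLeft_comp, Category.assoc]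
  rcases lt_trichotomy n K with e | e | e
  · rw [h.tw_of_le e.le, h.tw_of_le e, show K - n = K - (n + 1) + 1 by omega, h.act_wt,
      whisker_exchange_assoc]
  · rw [h.tw_of_le e.le, h.tw_of_lt (by omega), e, Nat.sub_self, h.act_wt_zero, zero_whiskerRight',
      comp_zero, zero_comp]
  · rw [h.tw_of_lt (by omega), h.tw_of_lt (by omega), zero_whiskerRight']
    simp

@[reassoc]
theorem faceB_tw (h : IsFree γ) (b : A ⟶ ν) (K n : ℕ) (P : M) :
    faceB (b ≫ γ) P ≫ h.tw K n ▷ P = h.tw K (n + 1) ▷ (A ⊗ P) ≫ faceB (b ≫ γ) P := by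
  rw [faceB, Category.assoc, ← comp_whiskerRight, h.act_tw, comp_whiskerRight,
    associator_inv_naturality_left_assoc]

theorem compat_tw (h : IsFree γ) (K : ℕ) {p q : ℕ → Prop} {Z : M}
    {g : ∀ (ι : Type) [Finite ι], B.X ⊗ pw ι A' ⟶ Z} (hg : Compat c (b ≫ γ) p g)
    (hq : ∀ n, q n → n ≤ K → p n) :
    Compat c (b ≫ γ) q (fun ι _ => h.tw K (Nat.card ι) ▷ pw ι A' ≫ g ι) := by
  refine ⟨fun ι κ _ _ e hκ => ?_, fun ι _ hι => ?_⟩
  · rw [Nat.card_congr e]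
    by_cases l : Nat.card κ ≤ K
    · rw [whisker_exchange_assoc, hg.equiv ι κ e (hq _ hκ l)]
    · rw [h.tw_of_lt l, zero_whiskerRight', zero_whiskerRight']
      simp
  · rw [faceB_tw_assoc, Finite.card_option]
    by_cases l : Nat.card ι + 1 ≤ K
    · rw [faceY, whisker_exchange_assoc, ← faceY, hg.face ι (hq _ hι l)]
    · rw [h.tw_of_lt l, zero_whiskerRight', zero_whiskerRight']
      simp

variable (c b) in
/-- the projection of a stage to the total degree `K` -/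
noncomputable def stgE (h : IsFree γ) (K j : ℕ) : stg c (b ≫ γ) j ⟶ stg c (b ≫ γ) j :=
  stgDesc (h.compat_tw K (q := (· ≤ j)) (isPres_stg c (b ≫ γ) j).compat (fun _ l _ => l))
    (fun _ l => l)

@[reassoc]
theorem gen_stgE (h : IsFree γ) (K j : ℕ) (ι : Type) [Finite ι] (l : Nat.card ι ≤ j) :
    stgGen c (b ≫ γ) j ι ≫ h.stgE c b K j =
      h.tw K (Nat.card ι) ▷ pw ι A' ≫ stgGen c (b ≫ γ) j ι := stgGen_stgDesc _ _ ι l

theorem stgE_stgE (h : IsFree γ) (K j : ℕ) :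
    h.stgE c b K j ≫ h.stgE c b K j = h.stgE c b K j :=
  (isPres_stg c (b ≫ γ) j).ext fun ι _ l => by
    rw [h.gen_stgE_assoc K j ι l, h.gen_stgE K j ι l, ← comp_whiskerRight_assoc, h.tw_tw]

theorem stgE_stgI (h : IsFree γ) (K j : ℕ) :
    h.stgE c b K j ≫ stgI c (b ≫ γ) j = stgI c (b ≫ γ) j ≫ h.stgE c b K (j + 1) :=
  (isPres_stg c (b ≫ γ) j).ext fun ι _ l => by
    rw [h.gen_stgE_assoc K j ι l, stgGen_stgI c _ j ι l, stgGen_stgI_assoc c _ j ι l,
      h.gen_stgE K _ ι (Nat.le_succ_of_le l)]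

theorem stgE_cok (h : IsFree γ) (K j : ℕ) {T : Type} [Finite T] (hT : Nat.card T = j + 1) {E : M}
    {r : stg c (b ≫ γ) (j + 1) ⟶ B.X ⊗ E} {u : pw T A' ⟶ E}
    (h1 : stgGen c (b ≫ γ) (j + 1) T ≫ r = B.X ◁ u) (h2 : stgI c (b ≫ γ) j ≫ r = 0) :
    h.stgE c b K (j + 1) ≫ r = r ≫ h.tw K (j + 1) ▷ E :=
  (isPres_stg c (b ≫ γ) (j + 1)).ext fun ι _ l => by
    rw [h.gen_stgE_assoc K _ ι l]
    by_cases hk : Nat.card ι ≤ j
    · rw [← stgGen_stgI c _ j ι hk, Category.assoc, Category.assoc, h2, reassoc_of% h2]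
      simp
    · obtain ⟨e⟩ : Nonempty (ι ≃ T) := Finite.card_eq.mp (by omega)
      rw [← (isPres_stg c (b ≫ γ) (j + 1)).compat.equiv ι T e hT.le, Category.assoc,
        Category.assoc, h1, reassoc_of% h1, Nat.card_congr e, hT, whisker_exchange,
        whisker_exchange_assoc]

/-- The part of total degree `K` of the stage `K` is the extended power of the pushout. -/
theorem exists_spl_stgE (h : IsFree γ) {Y : M} {χ : A' ⟶ Y} {a : ν ⟶ Y} (H : IsPushout c b χ a)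
    {T : Type} [Finite T] {D : M} {π : pw T Y ⟶ D}
    (hπ : IsOrb (fun σ : Equiv.Perm T => pwE Y σ) π) {K : ℕ} (hK : Nat.card T = K) :
    ∃ (r : stg c (b ≫ γ) K ⟶ D) (s : D ⟶ stg c (b ≫ γ) K), Spl (h.stgE c b K K) r s := by
  obtain ⟨B', i, χ', h'⟩ := exists_isAtt c (b ≫ γ)
  obtain ⟨γ', hf, rfl, ha⟩ := h.att H h'
  obtain ⟨r, s, hs, -⟩ := hf.exists_spl hπ
  rw [hK] at hs
  obtain ⟨ρ, hρ⟩ := h'.isPres.desc _ (h.compat_tw K (q := fun _ => True)
    (isPres_stg c (b ≫ γ) K).compat (fun _ _ l => l))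
  have e1 : stgTo h'.w K ≫ ρ = h.stgE c b K K := (isPres_stg c (b ≫ γ) K).ext fun ι _ l => by
    rw [stgGen_stgTo_assoc h'.w K ι l, hρ ι trivial, h.gen_stgE K K ι l]
  have e2 : ρ ≫ stgTo h'.w K = hf.wt K := h'.isPres.ext fun ι _ _ => by
    rw [reassoc_of% (hρ ι trivial)]
    refine h.ext_right fun κ _ => ?_
    rw [fg_attGen_assoc γ i γ' a χ ha, ← comp_whiskerRight_assoc]
    by_cases l : Nat.card ι ≤ K
    · rw [stgGen_stgTo h'.w K ι l, h.tw_of_le l]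
      by_cases l' : Nat.card κ = K - Nat.card ι
      · rw [h.fg_wt κ l', fg_attGen γ i γ' a χ ha, hf.fg_wt _ (by rw [Nat.card_sum]; omega)]
      · rw [h.fg_wt_ne κ l', hf.fg_wt_ne _ (by rw [Nat.card_sum]; omega), zero_whiskerRight']
        simp
    · rw [h.tw_of_lt l, hf.fg_wt_ne _ (by rw [Nat.card_sum]; omega), comp_zero, zero_whiskerRight']
      simp
  refine ⟨stgTo h'.w K ≫ r, s ≫ ρ, ?_, ?_⟩
  · rw [Category.assoc, reassoc_of% hs.ps, ← e2, Category.assoc, reassoc_of% e1, e1, h.stgE_stgE]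
  · rw [Category.assoc, reassoc_of% e2, hs.ep, hs.sp]

end IsFree

variable [StabInput M]

/-- The filtration of the extended powers of a mapping cone. -/
theorem exists_kos {D : ℕ → M} {π : ∀ m, pw (Fin m) ν ⟶ D m}
    (hπ : ∀ m, IsOrb (fun σ : Equiv.Perm (Fin m) => pwE ν σ) (π m)) (k : ℕ) :
    ∃ m : D k ⊗ ν ⟶ D (k + 1), ∀ {A Y : M} {b : A ⟶ ν} {χ : A ⊗ CI M ⟶ Y} {a : ν ⟶ Y}
      (_ : IsPushout (coneBase A) b χ a) {T : Type} [Finite T] (_ : Nat.card T = k + 1) {L : M}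
      {πL : pw T Y ⟶ L} (_ : IsOrb (fun σ : Equiv.Perm T => pwE Y σ) πL) {E : ℕ → M}
      {ρ : ∀ m, pw (Fin m) (A ⊗ S M) ⟶ E m}
      (_ : ∀ m, IsOrb (fun σ : Equiv.Perm (Fin m) => pwE (A ⊗ S M) σ) (ρ m)),
      ∃ (G : ℕ → M) (i : ∀ j, G j ⟶ G (j + 1)),
        (∀ j ≤ k, HCof (i j) ∧ ∃ q : G (j + 1) ⟶ D (k - j) ⊗ E (j + 1), IsCok (i j) q) ∧
        Nonempty (G (k + 1) ≅ L) ∧ ∃ (κ : (D k ⊗ A) ⊗ CI M ⟶ G 1) (i' : D (k + 1) ⟶ G 1),
          IsPushout (coneBase (D k ⊗ A)) (D k ◁ b ≫ m) κ i' := by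
  obtain ⟨B, γ, h⟩ := exists_isFree ν
  have hD : ∀ m, ∃ (r : B.X ⟶ D m) (s : D m ⟶ B.X), Spl (h.wt m) r s := fun m => by
    obtain ⟨r, s, hs, -⟩ := h.exists_spl (hπ m)
    rw [Nat.card_fin] at hs
    exact ⟨r, s, hs⟩
  choose r s hs using hD
  refine ⟨s k ▷ ν ≫ B.X ◁ γ ≫ μ ≫ r (k + 1), ?_⟩
  intro A Y b χ a H T _ hT L πL hL E ρ hρ
  choose G p t hG using fun j => exists_spl (h.stgE_stgE (c := coneBase A) (b := b) (k + 1) j)
  refine ⟨G, fun j => t j ≫ stgI _ _ j ≫ p (j + 1), fun j hj => ⟨?_, ?_⟩, ?_, ?_⟩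
  · refine (hCof_stgI (b ≫ γ) j).of_retract (t j) (t (j + 1)) (p j) (p (j + 1)) ?_ ?_ (hG j).sp
      (hG (j + 1)).sp
    · rw [Category.assoc, Category.assoc, (hG j).comp_right (hG (j + 1)) (h.stgE_stgI _ j)]
    · exact (hG j).comp_left (hG (j + 1)) (h.stgE_stgI _ j)
  · obtain ⟨q, h1, h2⟩ := exists_cok_stgI (b ≫ γ) (Nat.card_fin (j + 1)) (hρ (j + 1))
    have w := h.stgE_cok (k + 1) j (Nat.card_fin (j + 1)) h1 h2.w
    rw [h.tw_of_le (by omega), Nat.add_sub_add_right] at w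
    exact ⟨_, (hG j).isCok (hG (j + 1)) ((hs (k - j)).map (tensorRight (E (j + 1)))) h2
      (h.stgE_stgI _ j) w⟩
  · obtain ⟨r', s', h'⟩ := h.exists_spl_stgE H hL hT
    exact ⟨(hG (k + 1)).iso h'⟩
  · have w : h.wt (k + 1) ≫ presI (stgGen (coneBase A) (b ≫ γ) 1) =
        presI (stgGen (coneBase A) (b ≫ γ) 1) ≫ h.stgE (coneBase A) b (k + 1) 1 := by
      simp only [presI, Category.assoc]
      rw [h.gen_stgE _ _ Empty (by simp), Nat.card_of_isEmpty, h.tw_of_le (Nat.zero_le _),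
        Nat.sub_zero, whisker_exchange_assoc, rightUnitor_inv_naturality_assoc]
    obtain ⟨κ, q, hc⟩ := isCone_orb (isPushout_stg_one (b ≫ γ)) (x := fun _ : Unit => h.wt k ▷ A)
      (f' := D k ◁ b ≫ s k ▷ ν ≫ B.X ◁ γ ≫ μ ≫ r (k + 1))
      (fun _ => by
        simp only [Category.assoc]
        rw [h.gen_stgE _ _ Unit (by simp), Nat.card_unique, h.tw_of_le (by omega),
          Nat.add_sub_cancel, whisker_exchange_assoc, associator_naturality_left_assoc])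
      (fun _ => w) ((hs k).map (tensorRight A)).isOrb (hs (k + 1)).isOrb (hG 1).isOrb
      (by
        change r k ▷ A ≫ _ = _
        rw [← whisker_exchange_assoc, ← comp_whiskerRight_assoc, (hs k).ps, ← h.act_wt_assoc,
          (hs (k + 1)).ep, MonoidalCategory.whiskerLeft_comp, Category.assoc, Category.assoc])
      ((hs (k + 1)).comp_left (hG 1) w)
    exact ⟨κ, _, hc.po⟩

end Vale.Agent.P257.V
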