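import Vale.Agent.P257.V.Good

/-!
# P257, block V: profiles and the counting lemma

`Prof τ π B W N` : in all weights `a` with `ℓ a ≤ Lm` the object `B` vanishes in negative
filtration degrees, is stable on `[W, P]`, and vanishes in the degree `P` in the dimensions `l` with
`p * l < bd a - p * N`.
-/

open CategoryTheory MonoidalCategory Limits Pointwise

namespace Vale.Agent.P257.V

open Vale.Agent.P257.C

universe v u

/-- The numerical parameters of the counting lemma. -/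
structure Par (Λ : Type) [AddCommGroup Λ] where
  /-- the top of the window -/
  P : ℕ
  /-- the prime -/
  p : ℕ
  /-- the bound for the length -/
  Lm : ℕ
  /-- the length -/
  ℓ : Λ →+ ℤ
  /-- `p` times the connectivity bound -/
  bd : Λ →+ ℤ
  p_pos : 0 < p

variable {C : Type u} [Category.{v} C] [MonoidalCategory C] [SymmetricCategory C] [Preadditive C]
  [MonoidalPreadditive C] {Λ : Type} [AddCommGroup Λ] {c : Cells C (ℤ × (Λ × ℤ))}
  (τ : TCone c) (π : Par Λ)

/-- the profile in one weight -/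
structure ProfAt (B : C) (a : Λ) (W N : ℤ) : Prop where
  neg : Neg c B a
  stab : Stab τ π.P B a W
  fine : ∀ l : ℤ, π.p * l < π.bd a - π.p * N → c.Van B (l, (a, (π.P : ℤ)))

/-- the profile -/
def Prof (B : C) (W N : ℤ) : Prop := ∀ a : Λ, π.ℓ a ≤ π.Lm → ProfAt τ π B a W N

variable {τ π} {A B B' D L : C} {a g : Λ} {W W' N N' n r : ℤ} {w : ℕ}

namespace ProfAt

omit [SymmetricCategory C] [MonoidalPreadditive C] in
theorem mono (h : ProfAt τ π B a W N) (hW : W ≤ W') (hN : N ≤ N') : ProfAt τ π B a W' N' :=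
  ⟨h.neg, h.stab.mono hW, fun l hl => h.fine l (by
    have := mul_le_mul_of_nonneg_left hN (Int.natCast_nonneg π.p)
    omega)⟩

omit [SymmetricCategory C] [MonoidalPreadditive C] in
theorem of_iso (h : ProfAt τ π B a W N) (i : B ≅ B') : ProfAt τ π B' a W N :=
  ⟨h.neg.of_iso i, h.stab.of_iso i, fun l hl => (h.fine l hl).of_iso i⟩

omit [MonoidalPreadditive C] in
theorem cone {i : A ⟶ B} (h : IsCone c i D) (hA : ProfAt τ π A a W N) (hD : ProfAt τ π D a W N) :
    ProfAt τ π B a W N :=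
  ⟨hA.neg.cone h hD.neg, hA.stab.cone h hD.stab, fun l hl => h.van_tgt' (hA.fine l hl) (hD.fine l hl)⟩

omit [SymmetricCategory C] in
theorem of_van (h : ∀ l T : ℤ, T ≤ π.P → c.Van B (l, (a, T))) : ProfAt τ π B a W N :=
  ⟨fun l T hT => h l T (hT.le.trans (Int.natCast_nonneg π.P)), Stab.of_van h, fun l _ => h l _ le_rfl⟩

theorem tensor (h : ProfAt τ π B (a - g) W N) (hL : Good τ π.P L g r w) (hw : W + w ≤ π.P)
    (hr : π.bd g - π.p * n ≤ π.p * r) : ProfAt τ π (B ⊗ L) a (W + w) (N + n) := by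
  refine ⟨h.neg.tensor hL.tc, Stab.tensor h.neg h.stab hL.tc, fun l hl =>
    hL.fine B a l h.neg (h.stab.mono (by omega)) fun m hm => h.fine m ?_⟩
  have h1 := mul_le_mul_of_nonneg_left hm (Int.natCast_nonneg π.p)
  rw [map_sub]
  rw [mul_add] at hl
  rw [mul_sub] at h1
  omega

omit [SymmetricCategory C] in
/-- the vanishing statement which a profile contains -/
theorem van (h : ProfAt τ π B a W N) {l T : ℤ} (h1 : W ≤ T) (h2 : T ≤ π.P)
    (hl : π.p * l < π.bd a - π.p * N) : c.Van B (l, (a, T)) :=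
  h.stab.down h1 h2 (h.fine l hl)

end ProfAt

namespace Prof

omit [SymmetricCategory C] [MonoidalPreadditive C] in
theorem mono (h : Prof τ π B W N) (hW : W ≤ W') (hN : N ≤ N') : Prof τ π B W' N' :=
  fun a ha => (h a ha).mono hW hN

omit [SymmetricCategory C] [MonoidalPreadditive C] in
theorem of_iso (h : Prof τ π B W N) (i : B ≅ B') : Prof τ π B' W N :=
  fun a ha => (h a ha).of_iso i

omit [MonoidalPreadditive C] in
theorem cone {i : A ⟶ B} (h : IsCone c i D) (hA : Prof τ π A W N) (hD : Prof τ π D W N) :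
    Prof τ π B W N := fun a ha => (hA a ha).cone h (hD a ha)

theorem tensor (h : Prof τ π B W N) (hL : Good τ π.P L g r w) (hg : 0 ≤ π.ℓ g)
    (hw : W + w ≤ π.P) (hr : π.bd g - π.p * n ≤ π.p * r) :
    Prof τ π (B ⊗ L) (W + w) (N + n) := fun a ha =>
  (h (a - g) (by rw [map_sub]; omega)).tensor hL hw hr

/-- an object of weight zero and filtration degree zero which is connective -/
theorem tensor_conn (h : Prof τ π B W N) (hL : c.Conn L (0, 0) 0) (hW : W ≤ π.P) :
    Prof τ π (B ⊗ L) W N := by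
  have := h.tensor (n := 0) (w := 0) (Good.of_conn hL le_rfl le_rfl) (by simp) (by simpa)
    (by simp)
  simpa using this

omit [SymmetricCategory C] in
/-- the vanishing statement which a profile contains -/
theorem van (h : Prof τ π B W N) (ha : π.ℓ a ≤ π.Lm) {l T : ℤ} (h1 : W ≤ T) (h2 : T ≤ π.P)
    (hl : π.p * l < π.bd a - π.p * N) : c.Van B (l, (a, T)) := (h a ha).van h1 h2 hl

omit [SymmetricCategory C] in
/-- The profile of the unit. -/
theorem unit (h0 : ∀ (l T : ℤ) (a : Λ), a ≠ 0 ∨ T < 0 → c.Van (𝟙_ C) (l, (a, T)))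
    (h1 : ∀ l : ℤ, l < 0 → c.Van (𝟙_ C) (l, (0, (π.P : ℤ))))
    (h2 : ∀ (l T : ℤ) (f : ℕ), (f : ℤ) ≤ T → c.Van (τ.K f) (l, (0, T))) :
    Prof τ π (𝟙_ C) 0 0 := by
  intro a _
  by_cases ha : a = 0
  · subst ha
    refine ⟨fun l T hT => h0 l T 0 (Or.inr hT), fun l T f k _ =>
      (h2 l T f (by omega)).of_iso (λ_ _).symm, fun l hl => h1 l ?_⟩
    rw [map_zero, mul_zero, sub_zero] at hl
    exact neg_of_mul_neg_right hl (Int.natCast_nonneg π.p)
  · exact ProfAt.of_van fun l T _ => h0 l T a (Or.inl ha)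

/-- **The counting lemma.**  `F 0 = B ⟶ F 1 ⟶ ⋯ ⟶ B'` is a filtration with layers `B ⊗ L k`, which
is finite in every weight. -/
theorem attach (h : Prof τ π B W N) {F L E : ℕ → C} (e : B ≅ F 0) {i : ∀ k, F k ⟶ F (k + 1)}
    (hi : ∀ k, IsCone c (i k) (B ⊗ L (k + 1))) {j : ∀ k, F k ⟶ B'} (hj : ∀ k, IsCone c (j k) (E k))
    (hw : W + w ≤ π.P) (hn : 0 ≤ n)
    (fin : ∀ a : Λ, π.ℓ a ≤ π.Lm → ∃ m : ℕ, (∀ l T : ℤ, T ≤ π.P → c.Van (E m) (l, (a, T))) ∧
      ∀ k, 1 ≤ k → k ≤ m → ∃ (g : Λ) (r : ℤ), 0 ≤ π.ℓ g ∧ Good τ π.P (L k) g r w ∧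
        π.bd g - π.p * n ≤ π.p * r) :
    Prof τ π B' (W + w) (N + n) := by
  intro a ha
  obtain ⟨m, h1, h2⟩ := fin a ha
  have key : ∀ k ≤ m, ProfAt τ π (F k) a (W + w) (N + n) := by
    intro k hk
    induction k with
    | zero => exact ((h a ha).mono (by omega) (by omega)).of_iso e
    | succ k ih =>
      obtain ⟨g, r, hg, hL, hr⟩ := h2 (k + 1) (by omega) hk
      exact (ih (by omega)).cone (hi k) (h.tensor hL hg hw hr a ha)
  exact (key m le_rfl).cone (hj m) (ProfAt.of_van h1)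

end Prof

end Vale.Agent.P257.V
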