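import Vale.Agent.P257.V.Kinds
import Vale.Agent.P257.V.Kos
import Vale.Agent.P257.L.Loc
import Vale.Agent.P257.M.Cone

/-!
# P257, block V: filtrations of cell attachments in the stable category
-/

open CategoryTheory MonoidalCategory Limits Pointwise Functor.LaxMonoidal Functor.OplaxMonoidal

namespace Vale.Agent.P257.V

open Vale.Agent.P251.H Vale.Agent.P251.H.StabInput Vale.Agent.P257.A Vale.Agent.P257.F
open Vale.Agent.P257.C Vale.Agent.P257.L

universe v u v' u'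

section abstract

variable {C : Type u} [Category.{v} C] [MonoidalCategory C] [SymmetricCategory C] [Preadditive C]
  [MonoidalPreadditive C] {Γ : Type} [AddCommGroup Γ] {c : Cells C (ℤ × Γ)} {A B Z A' B' : C}

theorem IsCone.of_tri {S : C} (s : S ≅ c.obj (1, 0)) {D : TriStr S} {f : A ⟶ B} {g : B ⟶ Z}
    {q : Z ⟶ A ⊗ S} (h : D.Tri f g q) : IsCone c f Z := by
  have : P251.M.IsInv (c.obj (1, 0)) := P251.M.IsInv.of_inverse (c.inv' _)
  have : P251.M.IsInv S := P251.M.IsInv.of_iso s.symm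
  refine IsCone.of_ex s (fun Y _ y e => TriStr.co₂ (D.whiskerLeft Y h) y e)
    (fun Y _ y e => TriStr.co₃ (D.whiskerLeft Y h) y (by rw [reassoc_of% e, zero_comp]))
    (fun Y _ y e => ?_) (TriStr.comp₁ h) (TriStr.comp₃ h)
  obtain ⟨x, hx⟩ := TriStr.co₄ (D.whiskerLeft Y h) (y ≫ (α_ _ _ _).inv) (by
    rw [Category.assoc, ← associator_inv_naturality_middle, reassoc_of% e, zero_comp])
  exact ⟨x, by rwa [← Category.assoc, cancel_mono] at hx⟩

omit [SymmetricCategory C] [MonoidalPreadditive C] in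
theorem IsCone.of_tEq_comp {u : A' ⟶ A} {a : A ⟶ B} (hu : c.TEq u) (h : IsCone c (u ≫ a) Z) :
    IsCone c a Z := by
  refine ⟨fun Y k g hs hi => h.van Y k g ?_ ?_, fun Y k g hv w hw => ?_, fun Y k g hv w => ?_⟩
  · rw [MonoidalCategory.whiskerLeft_comp]
    exact (Surj.of_bijective (hu Y _)).comp hs
  · rw [MonoidalCategory.whiskerLeft_comp]
    exact (Inj.of_bijective (hu Y _)).comp hi
  · obtain ⟨w, rfl⟩ := (hu Y _).2 w
    rw [h.inj Y k g hv w (by rw [MonoidalCategory.whiskerLeft_comp, ← Category.assoc]; exact hw)]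
    exact zero_comp
  · obtain ⟨w, rfl⟩ := h.surj Y k g hv w
    exact ⟨w ≫ Y ◁ u, by rw [MonoidalCategory.whiskerLeft_comp, Category.assoc]⟩

omit [SymmetricCategory C] [MonoidalPreadditive C] in
theorem tConn_empty_left {Δ : Type} [AddCommGroup Δ] {c : Cells C Δ} (h : c.TConn B ∅) (A : C) :
    c.TConn (A ⊗ B) ∅ := fun Y d l => (h (Y ⊗ A) d (by simp)).of_iso (α_ _ _ _)

end abstract

section delay

variable {C : Type u} [Category.{v} C] [MonoidalCategory C] [SymmetricCategory C] [Preadditive C]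
  [MonoidalPreadditive C] {Λ : Type} [AddCommGroup Λ] {c : Cells C (ℤ × (Λ × ℤ))} (τ : TCone c)
  {A B A' B' D K L : C}

/-- `a` is the map which delays `B` by `f` -/
def Dl (f : ℕ) (a : A ⟶ B) : Prop :=
  ∃ u : A ⟶ B ⊗ τ.R f, c.TEq u ∧ u ≫ B ◁ τ.t f ≫ (ρ_ B).hom = a

variable {τ} {f : ℕ} {a : A ⟶ B}

omit [SymmetricCategory C] [MonoidalPreadditive C] in
theorem Dl.self (f : ℕ) (B : C) : Dl τ f (B ◁ τ.t f ≫ (ρ_ B).hom) :=
  ⟨𝟙 _, Cells.TEq.of_isIso _, Category.id_comp _⟩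

omit [SymmetricCategory C] [MonoidalPreadditive C] in
theorem Dl.of_iso (h : Dl τ f a) (i : A' ⟶ A) (hi : c.TEq i) (j : B ⟶ B') [IsIso j] :
    Dl τ f (i ≫ a ≫ j) := by
  obtain ⟨u, hu, rfl⟩ := h
  refine ⟨i ≫ u ≫ j ▷ _, hi.comp (hu.comp (Cells.TEq.of_isIso _)), ?_⟩
  simp only [Category.assoc]
  rw [← whisker_exchange_assoc, rightUnitor_naturality]

omit [SymmetricCategory C] [MonoidalPreadditive C] in
theorem Dl.whiskerLeft (h : Dl τ f a) (X : C) : Dl τ f (X ◁ a) := by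
  obtain ⟨u, hu, rfl⟩ := h
  exact ⟨X ◁ u ≫ (α_ _ _ _).inv, (hu.whiskerLeft X).comp (Cells.TEq.of_isIso _), by simp⟩

omit [MonoidalPreadditive C] in
theorem Dl.whiskerRight (h : Dl τ f a) (X : C) : Dl τ f (a ▷ X) := by
  have := (h.whiskerLeft X).of_iso (β_ _ _).hom (Cells.TEq.of_isIso _) (β_ _ _).hom
  rwa [← BraidedCategory.braiding_naturality_left_assoc, SymmetricCategory.symmetry,
    Category.comp_id] at this

omit [SymmetricCategory C] in
theorem Dl.tConn (h : Dl τ f a) {g : Λ} {T : ℤ} (k : c.TConn B (At g T)) :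
    c.TConn A (At g (T + f)) := by
  obtain ⟨u, hu, -⟩ := h
  have := (k.tensor (τ.tConn_R f)).mono at_add
  rw [add_zero] at this
  exact (Cells.TConn.of_tEq hu).2 this

omit [SymmetricCategory C] in
theorem Dl.conn (h : Dl τ f a) {g : Λ} {T r : ℤ} (k : c.Conn B (g, T) r) :
    c.Conn A (g, T + f) r := by
  obtain ⟨u, hu, -⟩ := h
  have := k.tensor ((Cells.Conn.cell (c := c) 0 (0, (f : ℤ))).of_iso (τ.e f).symm)
  rw [add_zero, Prod.mk_add_mk, add_zero] at this
  exact (Cells.TConn.of_tEq hu).2 this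

theorem Good.koszul' {P r : ℤ} {g : Λ} {m : B ⟶ D} (ha : Dl τ f a) (hK : IsCone c m K)
    (kK : c.Conn K (g, 0) r) (hB : c.TConn B (At g 0)) (hD : c.TConn D (At g 0))
    (hL : IsCone c (a ≫ m) L) : Good τ P L g r f := by
  obtain ⟨u, hu, rfl⟩ := ha
  rw [Category.assoc, Category.assoc] at hL
  exact Good.koszul f hK kK hB hD (hL.of_tEq_comp hu)

end delay

variable {M : Type u} [Category.{v} M] [MonoidalCategory M] [SymmetricCategory M]
  [MonoidalClosed M] [HasZeroMorphisms M] [HasColimitsOfSize.{0, 0} M]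

/-- the extended power -/
noncomputable def DP (k : ℕ) (Y : M) : M :=
  (exists_isOrb fun σ : Equiv.Perm (Fin k) => pwE Y σ).choose

/-- the projection to the extended power -/
noncomputable def DPπ (k : ℕ) (Y : M) : pw (Fin k) Y ⟶ DP k Y :=
  (exists_isOrb fun σ : Equiv.Perm (Fin k) => pwE Y σ).choose_spec.choose

omit [MonoidalClosed M] [HasZeroMorphisms M] in
theorem isOrb_DP (k : ℕ) (Y : M) : IsOrb (fun σ : Equiv.Perm (Fin k) => pwE Y σ) (DPπ k Y) :=
  (exists_isOrb fun σ : Equiv.Perm (Fin k) => pwE Y σ).choose_spec.choose_spec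

omit [MonoidalClosed M] [HasZeroMorphisms M] in
theorem isIso_DPπ {k : ℕ} (hk : k ≤ 1) (Y : M) : IsIso (DPπ k Y) := by
  have : Subsingleton (Fin k) := Fin.subsingleton_iff_le_one.2 hk
  obtain ⟨e, he⟩ := (IsOrb.of_forall_eq_id (ρ := fun σ : Equiv.Perm (Fin k) => pwE Y σ) fun σ => by
    rw [Subsingleton.elim σ (Equiv.refl _), pwE_refl]).exists_iso (isOrb_DP k Y)
  rw [← he]
  infer_instance

/-- the extended power of arity zero -/
noncomputable def DP0 (Y : M) : 𝟙_ M ≅ DP 0 Y :=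
  have := isIso_DPπ (Nat.zero_le 1) Y
  asIso (pw0 (Fin 0) Y ≫ DPπ 0 Y)

/-- the extended power of arity one -/
noncomputable def DP1 (Y : M) : Y ≅ DP 1 Y :=
  have := isIso_DPπ le_rfl Y
  asIso (pw1 Y ≫ pwE Y (Equiv.ofUnique Unit (Fin 1)) ≫ DPπ 1 Y)

variable [StabInput M] {C : Type u'} [Category.{v'} C] [Preadditive C] [MonoidalCategory C]
  [SymmetricCategory C] [MonoidalPreadditive C] (st : M ⥤ C) [st.Monoidal]

/-- a localisation in which the circle is the cell of degree `(1, 0)` -/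
structure Real {Γ : Type} [AddCommGroup Γ] (c : Cells C (ℤ × Γ)) : Prop where
  loc : Loc st
  sph : Nonempty (st.obj (S M) ≅ c.obj (1, 0))

variable {st}

namespace Real

section

variable {Γ : Type} [AddCommGroup Γ] {c : Cells C (ℤ × Γ)} (H : Real st c) {A B Z X : M}
include H

theorem cone {u : A ⟶ B} {k : A ⊗ CI M ⟶ Z} {i : B ⟶ Z} (h : IsPushout (coneBase A) u k i) :
    IsCone c (st.map u) (st.obj Z) := by
  obtain ⟨s⟩ := H.sph
  obtain ⟨q, hq⟩ := H.loc.tri_pushout h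
  exact IsCone.of_tri s hq

theorem cok {i : A ⟶ B} {q : B ⟶ Z} (hi : HCof i) (h : IsCok i q) :
    IsCone c (st.map i) (st.obj Z) := by
  obtain ⟨s⟩ := H.sph
  obtain ⟨q, hq⟩ := H.loc.tri_hCof hi isZero_empty (h.isPushout isZero_empty 0 0)
  exact IsCone.of_tri s hq

omit [SymmetricCategory C] [st.Monoidal] in
theorem conn_S : c.Conn (st.obj (S M)) 0 1 := by
  obtain ⟨s⟩ := H.sph
  exact (Cells.Conn.cell 1 0).of_iso s.symm

omit [SymmetricCategory C] in
theorem conn_susp {g : Γ} {r : ℤ} (h : c.Conn (st.obj X) g r) :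
    c.Conn (st.obj (X ⊗ S M)) g (r + 1) := by
  have := h.tensor H.conn_S
  rw [add_zero] at this
  exact this.of_iso (Functor.Monoidal.μIso st _ _)

/-- cones are acyclic -/
theorem tConn_CI (X : M) : c.TConn (st.obj (X ⊗ CI M)) ∅ :=
  (H.cone (u := 𝟙 X) (k := 𝟙 _) (i := coneBase X) (IsPushout.of_vert_isIso ⟨by simp⟩)).tConn_of_tEq
    (Cells.TEq.of_isIso _)

/-- the arity filtration of a cell attachment -/
theorem filt {B B' : CommMon M} {i : B ⟶ B'} {x : X ⟶ B.X} {χ : X ⊗ CI M ⟶ B'.X}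
    (w : coneBase X ≫ χ = x ≫ ah i) : Filt c (st.obj B.X) (st.obj B'.X)
      (fun k => st.obj (DP k (X ⊗ S M))) (fun k => st.obj (P257.M.cone (stgTo w k))) := by
  refine ⟨fun k => st.obj (stg (coneBase X) x k), st.mapIso (stg0 _ x),
    fun k => st.map (stgI _ x k), fun k => st.map (stgTo w k), fun k => ?_,
    fun k => H.cone (P257.M.isPushout_cone _)⟩
  obtain ⟨r, -, hr⟩ := exists_cok_stgI x (Nat.card_fin (k + 1)) (isOrb_DP (k + 1) (X ⊗ S M))
  exact (H.cok (hCof_stgI x k) hr).of_iso (Iso.refl _) (Iso.refl _) (by simp)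
    (Functor.Monoidal.μIso st _ _).symm

theorem van_cone {f : A ⟶ B} {g : Γ}
    (h : ∀ l : ℤ, Function.Bijective fun x : c.obj (l, g) ⟶ st.obj A => x ≫ st.map f) (l : ℤ) :
    c.Van (st.obj (P257.M.cone f)) (l, g) :=
  (H.cone (P257.M.isPushout_cone f)).van' (Surj.of_bijective (h _)) (Inj.of_bijective (h _))

end

variable {Λ : Type} [AddCommGroup Λ] {c : Cells C (ℤ × (Λ × ℤ))} (H : Real st c) {τ : TCone c}
include H

/-- The extended powers of the cone on a delayed cell are good layers. -/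
theorem good_kos {ν A Y : M} {b : A ⟶ ν} {χ : A ⊗ CI M ⟶ Y} {a : ν ⟶ Y}
    (hY : IsPushout (coneBase A) b χ a) {f : ℕ} (hb : Dl τ f (st.map b)) {P r : ℤ} {g : Λ} (k : ℕ)
    (h1 : ∀ j ≤ k + 1, c.TConn (st.obj (DP j ν)) (At (j • g) 0))
    (h2 : c.TConn (st.obj (DP (k + 1) (ν ⊗ CI M))) ∅)
    (h3 : ∀ j, 1 ≤ j → j ≤ k → c.Conn (st.obj (DP (k - j) ν) ⊗ st.obj (DP (j + 1) (ν ⊗ S M)))
      ((k + 1) • g, 0) (r + 1))
    (h4 : ∀ j, 1 ≤ j → j ≤ k → Good τ P (st.obj (DP (k - j) ν) ⊗ st.obj (DP (j + 1) (A ⊗ S M)))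
      ((k + 1) • g) r f) : Good τ P (st.obj (DP (k + 1) Y)) ((k + 1) • g) r f := by
  obtain ⟨m, hm⟩ := exists_kos (fun j => isOrb_DP j ν) k
  obtain ⟨G, i, hi, ⟨e⟩, κ, i', hG⟩ := hm (b := 𝟙 ν) (χ := 𝟙 _) (a := coneBase ν)
    (IsPushout.of_vert_isIso ⟨by simp⟩) (Nat.card_fin _) (isOrb_DP _ _) (fun j => isOrb_DP j _)
  have k1 : ∀ j, j ≤ k → c.Conn (st.obj (G (k - j + 1))) ((k + 1) • g, 0) r := by
    intro j hj
    induction j with
    | zero => exact Cells.Conn.of_empty (h2.of_iso (st.mapIso e.symm))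
    | succ j ih =>
      obtain ⟨l1, q, l2⟩ := hi (k - j) (Nat.sub_le _ _)
      rw [show k - (j + 1) + 1 = k - j by omega]
      exact (H.cok l1 l2).conn_src (ih (by omega))
        ((h3 (k - j) (by omega) (Nat.sub_le _ _)).of_iso (Functor.Monoidal.μIso st _ _))
  have k2 := k1 k le_rfl
  rw [Nat.sub_self, Nat.zero_add] at k2
  have k3 := H.cone hG
  rw [MonoidalCategory.whiskerLeft_id, Category.id_comp] at k3
  obtain ⟨G, i, hi, ⟨e⟩, κ, i', hG⟩ := hm hY (Nat.card_fin _) (isOrb_DP _ _)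
    (fun j => isOrb_DP j _)
  have k4 := H.cone hG
  rw [st.map_comp] at k4
  refine (Good.chain (F := fun j => st.obj (G j)) (i := fun j => st.map (i j)) (m := 1) (k + 1)
    (by omega) (fun j _ l => ?_) (Good.koszul' ?_ k3 k2 ?_ (h1 _ le_rfl) k4)
    (fun j l l' => h4 j l (by omega))).of_iso (st.mapIso e)
  · obtain ⟨l1, q, l2⟩ := hi j (by omega)
    exact (H.cok l1 l2).of_iso (Iso.refl _) (Iso.refl _) (by simp)
      (Functor.Monoidal.μIso st _ _).symm
  · rw [Functor.Monoidal.map_whiskerLeft]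
    exact (hb.whiskerLeft _).of_iso _ (Cells.TEq.of_isIso _) _
  · have := ((h1 k (by omega)).tensor ((h1 1 (by omega)).of_iso
      (st.mapIso (DP1 ν).symm))).mono at_add
    rw [add_zero, ← add_smul] at this
    exact this.of_iso (Functor.Monoidal.μIso st _ _)

end Real

end Vale.Agent.P257.V
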